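import Vale.Agent.P083K.Defs3

open Filter Topology Matrix
open scoped ENNReal

namespace Vale.Agent.P083K

open Vale.Agent.P101K

theorem E1_omk_eq {ω : Ultrafilter ℕ} {O : Type} [CStarAlgebra O] [Nontrivial O] {x y : Bdd O}
    (h : Tendsto (fun n => ‖x n - y n‖) ω (𝓝 0)) : omk O ω x = omk O ω y := by
  change (aomMk x : Aom O ω) = aomMk y
  exact aomMk_eq.2 h

/-- (E1) `γ a` = class of the bounded sequence `φ n a` (`omk`, `omk_eq`..., see Vale/Agent/P101K/Aomega.lean
and the use in Vale/Agent/P104/Ult.lean). -/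
theorem seq_hom {ω : Ultrafilter ℕ} {O A : Type} [CStarAlgebra O] [Nontrivial O] [CStarAlgebra A]
    (φ : ℕ → A → O) (h : IsHS ω φ) : ∃ γ : A →⋆ₐ[ℂ] Aom O ω, ∀ a, ∃ y : Bdd O, (∀ n, y n = φ n a) ∧
      γ a = omk O ω y := by
  obtain ⟨hb, h1, hadd, hmul, hsmul, hstar⟩ := h
  have hex : ∀ a, ∃ y : Bdd O, ∀ n, y n = φ n a := by
    intro a
    obtain ⟨C, hC⟩ := hb a
    exact ⟨⟨fun n => φ n a, memℓp_infty ⟨C, by rintro _ ⟨n, rfl⟩; exact hC n⟩⟩, fun n => rfl⟩
  choose yy hyy using hex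
  have m1 : omk O ω (yy 1) = 1 := by
    rw [← map_one (omk O ω)]
    refine E1_omk_eq (h1.congr fun n => ?_)
    rw [hyy]
    rfl
  have mmul : ∀ a b, omk O ω (yy (a * b)) = omk O ω (yy a) * omk O ω (yy b) := by
    intro a b
    rw [← map_mul]
    refine E1_omk_eq ((hmul a b).congr fun n => ?_)
    rw [aom_mul_apply, hyy, hyy, hyy]
  have madd : ∀ a b, omk O ω (yy (a + b)) = omk O ω (yy a) + omk O ω (yy b) := by
    intro a b
    rw [← map_add]
    refine E1_omk_eq ((hadd a b).congr fun n => ?_)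
    rw [aom_add_apply, hyy, hyy, hyy]
  have msmul : ∀ (c : ℂ) a, omk O ω (yy (c • a)) = c • omk O ω (yy a) := by
    intro c a
    rw [← map_smul]
    refine E1_omk_eq ((hsmul c a).congr fun n => ?_)
    rw [aom_smul_apply, hyy, hyy]
  have mstar : ∀ a, omk O ω (yy (star a)) = star (omk O ω (yy a)) := by
    intro a
    rw [← map_star]
    refine E1_omk_eq ((hstar a).congr fun n => ?_)
    rw [aom_star_apply, hyy, hyy]
  refine ⟨
    { toFun := fun a => omk O ω (yy a)
      map_one' := m1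
      map_mul' := mmul
      map_zero' := ?_
      map_add' := madd
      commutes' := ?_
      map_star' := mstar }, fun a => ⟨yy a, hyy a, rfl⟩⟩
  · have h0 := msmul 0 0
    rw [zero_smul, zero_smul] at h0
    exact h0
  · intro c
    change omk O ω (yy (algebraMap ℂ A c)) = algebraMap ℂ (Aom O ω) c
    rw [Algebra.algebraMap_eq_smul_one, msmul, m1, Algebra.algebraMap_eq_smul_one]

end Vale.Agent.P083K
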