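import Vale.Agent.P083K.Defs3

open Filter Topology Matrix
open scoped ENNReal

namespace Vale.Agent.P083K

open Vale.Agent.P101K

/-- the abstract direct sum construction: two isometries with orthogonal ranges adding up to `1` -/
private theorem DS_abs {P M : Type*} [CStarAlgebra P] [CStarAlgebra M] (S0 S1 : M)
    (h00 : star S0 * S0 = 1) (h11 : star S1 * S1 = 1) (h01 : star S0 * S1 = 0)
    (h10 : star S1 * S0 = 0) (hsum : S0 * star S0 + S1 * star S1 = 1) (γ γ' : P →⋆ₐ[ℂ] M) :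
    ∃ γ2 : P →⋆ₐ[ℂ] M, ∀ x, γ x = star S0 * γ2 x * S0 ∧ γ' x = star S1 * γ2 x * S1 := by
  refine ⟨{ toFun := fun x => S0 * γ x * star S0 + S1 * γ' x * star S1
            map_one' := ?_, map_mul' := ?_, map_zero' := ?_, map_add' := ?_, commutes' := ?_,
            map_star' := ?_ }, ?_⟩
  · rw [map_one, map_one, mul_one, mul_one, hsum]
  · intro x y
    rw [map_mul, map_mul]
    have e : (S0 * γ x * star S0 + S1 * γ' x * star S1) * (S0 * γ y * star S0 + S1 * γ' y * star S1)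
        = S0 * γ x * (star S0 * S0) * γ y * star S0 + S0 * γ x * (star S0 * S1) * γ' y * star S1
          + (S1 * γ' x * (star S1 * S0) * γ y * star S0
            + S1 * γ' x * (star S1 * S1) * γ' y * star S1) := by
      noncomm_ring
    rw [e, h00, h01, h10, h11]
    noncomm_ring
  · rw [map_zero, map_zero]
    simp
  · intro x y
    rw [map_add, map_add]
    noncomm_ring
  · intro c
    rw [AlgHomClass.commutes, AlgHomClass.commutes, ← Algebra.commutes c S0,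
      ← Algebra.commutes c S1, mul_assoc, mul_assoc, ← mul_add, hsum, mul_one]
  · intro x
    rw [star_add, star_mul, star_mul, star_star, star_mul, star_mul, star_star, map_star, map_star,
      mul_assoc, mul_assoc]
  · intro x
    constructor
    · have e : star S0 * (S0 * γ x * star S0 + S1 * γ' x * star S1) * S0
          = (star S0 * S0) * γ x * (star S0 * S0) + (star S0 * S1) * γ' x * (star S1 * S0) := by
        noncomm_ring
      show γ x = star S0 * (S0 * γ x * star S0 + S1 * γ' x * star S1) * S0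
      rw [e, h00, h01]
      simp
    · have e : star S1 * (S0 * γ x * star S0 + S1 * γ' x * star S1) * S1
          = (star S1 * S0) * γ x * (star S0 * S1) + (star S1 * S1) * γ' x * (star S1 * S1) := by
        noncomm_ring
      show γ' x = star S1 * (S0 * γ x * star S0 + S1 * γ' x * star S1) * S1
      rw [e, h11, h10]
      simp

private theorem DS_norm {M : Type*} [CStarAlgebra M] (S x : M) (h : star S * S = 1) :
    ‖star S * x * S‖ ≤ ‖x‖ := by
  have h1 : ‖S‖ ≤ 1 := by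
    have h2 : ‖S‖ * ‖S‖ ≤ 1 := by
      rw [← CStarRing.norm_star_mul_self, h]
      rcases subsingleton_or_nontrivial M with hM | hM
      · have : (1 : M) = 0 := Subsingleton.elim _ _
        rw [this, norm_zero]
        exact zero_le_one
      · rw [CStarRing.norm_one]
    nlinarith [norm_nonneg S]
  calc ‖star S * x * S‖ ≤ ‖star S‖ * ‖x‖ * ‖S‖ :=
        (norm_mul_le _ _).trans (mul_le_mul_of_nonneg_right (norm_mul_le _ _) (norm_nonneg _))
    _ ≤ 1 * ‖x‖ * 1 := by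
        rw [norm_star]
        gcongr
    _ = ‖x‖ := by rw [one_mul, mul_one]

private theorem DS_mem (s : Fin 2 → (H0 →L[ℂ] H0)) (i : Fin 2) : s i ∈ O2 s :=
  StarSubalgebra.le_topologicalClosure _ (StarAlgebra.subset_adjoin ℂ _ ⟨i, rfl⟩)

private theorem DS_cst {A : Type} [CStarAlgebra A] [Nontrivial A] {ω : Ultrafilter ℕ} (a b : A) :
    star (omk A ω (cst A a)) * omk A ω (cst A b) = omk A ω (cst A (star a * b)) := by
  rw [← map_star, ← map_mul]
  rfl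

private theorem DS_cst' {A : Type} [CStarAlgebra A] [Nontrivial A] {ω : Ultrafilter ℕ} (a b : A) :
    omk A ω (cst A a) * star (omk A ω (cst A b)) = omk A ω (cst A (a * star b)) := by
  rw [← map_star, ← map_mul]
  rfl

private theorem DS_cst_one {A : Type} [CStarAlgebra A] [Nontrivial A] {ω : Ultrafilter ℕ} :
    omk A ω (cst A 1) = 1 := by
  rw [← map_one (omk A ω)]
  rfl

private theorem DS_cst_zero {A : Type} [CStarAlgebra A] [Nontrivial A] {ω : Ultrafilter ℕ} :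
    omk A ω (cst A 0) = 0 := by
  rw [← map_zero (omk A ω)]
  rfl

private theorem DS_cst_add {A : Type} [CStarAlgebra A] [Nontrivial A] {ω : Ultrafilter ℕ}
    (a b : A) : omk A ω (cst A a) + omk A ω (cst A b) = omk A ω (cst A (a + b)) := by
  rw [← map_add]
  rfl

/-- (DS) the constant sequences of `s 0`, `s 1` are Cuntz isometries in `Aom (O2 s) ω`;
`γ'' x = S0 γ(x) S0* + S1 γ'(x) S1*`, and `γ x = S0* γ''(x) S0`. -/
theorem dsum {s : Fin 2 → (H0 →L[ℂ] H0)} [Nontrivial (O2 s)] (hs : CzRel s) {ω : Ultrafilter ℕ}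
    {P : Type} [CStarAlgebra P] (γ γ' : P →⋆ₐ[ℂ] Aom (O2 s) ω) :
    ∃ γ2 : P →⋆ₐ[ℂ] Aom (O2 s) ω, ∀ x, ‖γ x‖ ≤ ‖γ2 x‖ ∧ ‖γ' x‖ ≤ ‖γ2 x‖ := by
  obtain ⟨h00, h11, h01, h10, hsum⟩ := hs
  have e00 : star (⟨s 0, DS_mem s 0⟩ : O2 s) * ⟨s 0, DS_mem s 0⟩ = 1 := Subtype.ext h00
  have e11 : star (⟨s 1, DS_mem s 1⟩ : O2 s) * ⟨s 1, DS_mem s 1⟩ = 1 := Subtype.ext h11
  have e01 : star (⟨s 0, DS_mem s 0⟩ : O2 s) * ⟨s 1, DS_mem s 1⟩ = 0 := Subtype.ext h01
  have e10 : star (⟨s 1, DS_mem s 1⟩ : O2 s) * ⟨s 0, DS_mem s 0⟩ = 0 := Subtype.ext h10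
  have es : (⟨s 0, DS_mem s 0⟩ : O2 s) * star (⟨s 0, DS_mem s 0⟩ : O2 s)
      + (⟨s 1, DS_mem s 1⟩ : O2 s) * star (⟨s 1, DS_mem s 1⟩ : O2 s) = 1 := Subtype.ext hsum
  have k00 := DS_cst (ω := ω) (⟨s 0, DS_mem s 0⟩ : O2 s) ⟨s 0, DS_mem s 0⟩
  have k11 := DS_cst (ω := ω) (⟨s 1, DS_mem s 1⟩ : O2 s) ⟨s 1, DS_mem s 1⟩
  have k01 := DS_cst (ω := ω) (⟨s 0, DS_mem s 0⟩ : O2 s) ⟨s 1, DS_mem s 1⟩
  have k10 := DS_cst (ω := ω) (⟨s 1, DS_mem s 1⟩ : O2 s) ⟨s 0, DS_mem s 0⟩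
  rw [e00, DS_cst_one] at k00
  rw [e11, DS_cst_one] at k11
  rw [e01, DS_cst_zero] at k01
  rw [e10, DS_cst_zero] at k10
  obtain ⟨γ2, hγ2⟩ := DS_abs _ _ k00 k11 k01 k10 (by
    rw [DS_cst', DS_cst', DS_cst_add, es, DS_cst_one]) γ γ'
  refine ⟨γ2, fun x => ⟨?_, ?_⟩⟩
  · rw [(hγ2 x).1]
    exact DS_norm _ _ k00
  · rw [(hγ2 x).2]
    exact DS_norm _ _ k11

/-- finite version -/
theorem dsum_fin {s : Fin 2 → (H0 →L[ℂ] H0)} [Nontrivial (O2 s)] (hs : CzRel s) {ω : Ultrafilter ℕ}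
    {P : Type} [CStarAlgebra P]
    (h : ∀ (x : P) (ε : ℝ), 0 < ε → ∃ γ : P →⋆ₐ[ℂ] Aom (O2 s) ω, ‖x‖ - ε ≤ ‖γ x‖)
    (F : Finset P) {ε : ℝ} (hε : 0 < ε) :
    ∃ γ : P →⋆ₐ[ℂ] Aom (O2 s) ω, ∀ x ∈ F, ‖x‖ - ε ≤ ‖γ x‖ := by
  classical
  induction F using Finset.induction_on with
  | empty =>
    obtain ⟨γ, _⟩ := h 0 1 one_pos
    exact ⟨γ, fun x hx => absurd hx (Finset.notMem_empty x)⟩
  | insert a F _ ih =>
    obtain ⟨γ, hγ⟩ := ih
    obtain ⟨γ', hγ'⟩ := h a ε hε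
    obtain ⟨γ2, hγ2⟩ := dsum hs γ γ'
    refine ⟨γ2, fun x hx => ?_⟩
    rcases Finset.mem_insert.mp hx with rfl | hx
    · exact hγ'.trans (hγ2 x).2
    · exact (hγ x hx).trans (hγ2 x).1

end Vale.Agent.P083K
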