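import Vale.Agent.P083K.Defs
import Vale.Agent.P101K.Aomega

open Filter Topology Matrix
open scoped ENNReal

namespace Vale.Agent.P083K

open Vale.Agent.P101K

/-- `Λ(x) = s 0 x (s 0)* + s 1 x (s 1)*` -/
noncomputable def lam (s : Fin 2 → (H0 →L[ℂ] H0)) (x : H0 →L[ℂ] H0) : H0 →L[ℂ] H0 :=
  s 0 * x * star (s 0) + s 1 * x * star (s 1)

/-- `x ↦ ∑_(j < N) x_j e_j` -/
noncomputable def emb (N : ℕ) (x : EuclideanSpace ℂ (Fin N)) : H0 := ∑ j : Fin N, x j • bv (j : ℕ)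

/-- the points realised along `ω` by vectors of `H0` -/
def RealK (s : Fin 2 → (H0 →L[ℂ] H0)) (ω : Ultrafilter ℕ) {A : Type} (φ : ℕ → A → (H0 →L[ℂ] H0))
    {r : ℕ} (a : Fin r → A) (k : ℕ) : Set (Fin r × Fin k × Fin k → ℂ) :=
  {z | ∀ ε : ℝ, 0 < ε → ∀ᶠ n in (ω : Filter ℕ), ∃ (m : ℕ) (ζ : Fin k → H0),
    ∀ (t : Fin r) (i j : Fin k), ‖inner ℂ (ζ i) ((lam s)^[m] (φ n (a t)) (ζ j)) - z (t, i, j)‖ < ε}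

/-- `ζ` realises the state `f` on the finite sets `G`, `FA`, `FB` up to `δ` -/
def Rlz {A B P : Type} [CStarAlgebra A] [CStarAlgebra B] [CStarAlgebra P]
    (iA : A →⋆ₐ[ℂ] P) (iB : B →⋆ₐ[ℂ] P) (f : P →L[ℂ] ℂ) (G : Finset P) (FA : Finset A)
    (FB : Finset B) (δ : ℝ) (πA : A → (H0 →L[ℂ] H0)) (πB : B → (H0 →L[ℂ] H0)) (ζ : P → H0) : Prop :=
  (∀ p ∈ G, ∀ q ∈ G, ‖inner ℂ (ζ p) (ζ q) - f (star p * q)‖ < δ) ∧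
  (∀ p ∈ G, ∀ q ∈ G, ∀ a ∈ FA, ‖inner ℂ (ζ p) (πA a (ζ q)) - f (star p * iA a * q)‖ < δ) ∧
  (∀ p ∈ G, ∀ q ∈ G, ∀ b ∈ FB, ‖inner ℂ (ζ p) (πB b (ζ q)) - f (star p * iB b * q)‖ < δ)

/-- approximate homomorphism on `F` -/
def Apx {O P : Type} [CStarAlgebra O] [CStarAlgebra P] (F : Finset P) (ε R : ℝ) (θ : P → O) : Prop :=
  (∀ x ∈ F, ∀ y ∈ F, ∀ z ∈ F, ‖θ z - (θ x + θ y)‖ ≤ ‖z - (x + y)‖ + ε) ∧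
  (∀ x ∈ F, ∀ y ∈ F, ∀ z ∈ F, ‖θ z - θ x * θ y‖ ≤ ‖z - x * y‖ + ε) ∧
  (∀ x ∈ F, ∀ z ∈ F, ‖θ z - star (θ x)‖ ≤ ‖z - star x‖ + ε) ∧
  (∀ c : ℂ, ‖c‖ ≤ R → ∀ x ∈ F, ∀ z ∈ F, ‖θ z - c • θ x‖ ≤ ‖z - c • x‖ + ε) ∧
  (∀ x ∈ F, ‖θ x - 1‖ ≤ ‖x - 1‖ + ε) ∧
  (∀ x ∈ F, |‖θ x‖ - ‖x‖| ≤ ε)

/-- state -/
def IsSt {P : Type} [CStarAlgebra P] (f : P →L[ℂ] ℂ) : Prop :=
  f 1 = 1 ∧ ∀ y : P, ∃ r : ℝ, 0 ≤ r ∧ f (star y * y) = (r : ℂ)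

end Vale.Agent.P083K
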