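import Vale.Agent.P083K.Defs2

open Filter Topology Matrix
open scoped ENNReal

namespace Vale.Agent.P083K

open Vale.Agent.P101K

/-- the Cuntz relations -/
def CzRel (s : Fin 2 → (H0 →L[ℂ] H0)) : Prop :=
  star (s 0) * s 0 = 1 ∧ star (s 1) * s 1 = 1 ∧ star (s 0) * s 1 = 0 ∧ star (s 1) * s 0 = 0 ∧
      s 0 * star (s 0) + s 1 * star (s 1) = 1

/-- asymptotic *-homomorphism along `ω` -/
def IsHS (ω : Ultrafilter ℕ) {O A : Type} [CStarAlgebra O] [CStarAlgebra A] (φ : ℕ → A → O) : Prop :=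
  (∀ a, ∃ C : ℝ, ∀ n, ‖φ n a‖ ≤ C) ∧
    Tendsto (fun n => ‖φ n 1 - 1‖) ω (𝓝 0) ∧
    (∀ a b, Tendsto (fun n => ‖φ n (a + b) - (φ n a + φ n b)‖) ω (𝓝 0)) ∧
    (∀ a b, Tendsto (fun n => ‖φ n (a * b) - φ n a * φ n b‖) ω (𝓝 0)) ∧
    (∀ (c : ℂ) (a : A), Tendsto (fun n => ‖φ n (c • a) - c • φ n a‖) ω (𝓝 0)) ∧
    (∀ a, Tendsto (fun n => ‖φ n (star a) - star (φ n a)‖) ω (𝓝 0))

/-- the word property of `x` -/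
def Wp (s : Fin 2 → (H0 →L[ℂ] H0)) (ω : Ultrafilter ℕ) [Nontrivial (O2 s)]
    {A B P : Type} [CStarAlgebra A] [CStarAlgebra B] [CStarAlgebra P]
    (iA : A →⋆ₐ[ℂ] P) (iB : B →⋆ₐ[ℂ] P) (f : P →L[ℂ] ℂ) (x : P) : Prop :=
  ∀ (p : P) (ε : ℝ), 0 < ε → ∃ (G : Finset P) (FA : Finset A) (FB : Finset B) (δ : ℝ), 0 < δ ∧
    ∀ (πA : ℕ → A → O2 s) (πB : ℕ → B → O2 s) (ζ : ℕ → P → H0) (γ : P →⋆ₐ[ℂ] Aom (O2 s) ω),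
      (∀ a, ∃ y : Bdd (O2 s), (∀ n, y n = πA n a) ∧ γ (iA a) = omk (O2 s) ω y) →
      (∀ b, ∃ y : Bdd (O2 s), (∀ n, y n = πB n b) ∧ γ (iB b) = omk (O2 s) ω y) →
      (∀ᶠ n in (ω : Filter ℕ), Rlz iA iB f G FA FB δ (fun a => (πA n a : H0 →L[ℂ] H0))
        (fun b => (πB n b : H0 →L[ℂ] H0)) (ζ n)) →
      ∀ y : Bdd (O2 s), omk (O2 s) ω y = γ x →
        ∀ᶠ n in (ω : Filter ℕ), ‖((y n : O2 s) : H0 →L[ℂ] H0) (ζ n p) - ζ n (x * p)‖ < ε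

end Vale.Agent.P083K
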