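import Vale.Agent.P083K.Defs3

open Filter Topology Matrix
open scoped ENNReal

namespace Vale.Agent.P083K

open Vale.Agent.P101K

theorem E2a_ev {ω : Ultrafilter ℕ} {O : Type} [CStarAlgebra O] [Nontrivial O] (a : Bdd O) {B : ℝ}
    (h : ‖omk O ω a‖ < B) : ∀ᶠ n in (ω : Filter ℕ), ‖a n‖ ≤ B :=
  ((omk_norm O ω a).eventually (gt_mem_nhds h)).mono fun _ hn => le_of_lt hn

/-- (E2a) choose lifts `y_x : Bdd O` of `γ x` (`omk_surjective`); `‖omk y‖ = lim_ω ‖y n‖` (`omk_norm`), so each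
of the finitely many inequalities (a finite `ε/(…)`-net of the disc `‖c‖ ≤ R` for the fourth) holds for
`ω`-many `n`; take such an `n`, `θ x = y_x n`. `‖γ z - (γ x + γ y)‖ ≤ ‖z - (x + y)‖` since `γ` is contractive. -/
theorem hom_apx {ω : Ultrafilter ℕ} {O P : Type} [CStarAlgebra O] [Nontrivial O] [CStarAlgebra P]
    (γ : P →⋆ₐ[ℂ] Aom O ω) (F : Finset P) {ε : ℝ} (hε : 0 < ε) (R : ℝ)
    (h : ∀ x ∈ F, ‖x‖ - ε ≤ ‖γ x‖) : ∃ θ : P → O, Apx F (2 * ε) R θ := by
  choose y hy using fun x : P => omk_surjective O ω (γ x)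
  have hc : ∀ p : P, ‖γ p‖ ≤ ‖p‖ := fun p => NonUnitalStarAlgHom.norm_apply_le γ p
  have h1 : ∀ᶠ n in (ω : Filter ℕ), ∀ x ∈ F, ∀ x' ∈ F, ∀ z ∈ F,
      ‖y z n - (y x n + y x' n)‖ ≤ ‖z - (x + x')‖ + 2 * ε := by
    refine (Filter.eventually_all_finset F).2 fun x _ => (Filter.eventually_all_finset F).2
      fun x' _ => (Filter.eventually_all_finset F).2 fun z _ => ?_
    refine E2a_ev (y z - (y x + y x')) ?_
    rw [map_sub, map_add, hy, hy, hy, ← map_add, ← map_sub]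
    have := hc (z - (x + x'))
    linarith
  have h2 : ∀ᶠ n in (ω : Filter ℕ), ∀ x ∈ F, ∀ x' ∈ F, ∀ z ∈ F,
      ‖y z n - y x n * y x' n‖ ≤ ‖z - x * x'‖ + 2 * ε := by
    refine (Filter.eventually_all_finset F).2 fun x _ => (Filter.eventually_all_finset F).2
      fun x' _ => (Filter.eventually_all_finset F).2 fun z _ => ?_
    refine E2a_ev (y z - y x * y x') ?_
    rw [map_sub, map_mul, hy, hy, hy, ← map_mul, ← map_sub]
    have := hc (z - x * x')
    linarith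
  have h3 : ∀ᶠ n in (ω : Filter ℕ), ∀ x ∈ F, ∀ z ∈ F,
      ‖y z n - star (y x n)‖ ≤ ‖z - star x‖ + 2 * ε := by
    refine (Filter.eventually_all_finset F).2 fun x _ => (Filter.eventually_all_finset F).2
      fun z _ => ?_
    refine E2a_ev (y z - star (y x)) ?_
    rw [map_sub, map_star, hy, hy, ← map_star, ← map_sub]
    have := hc (z - star x)
    linarith
  have h4 : ∀ᶠ n in (ω : Filter ℕ), ∀ x ∈ F, ∀ z ∈ F, ∀ c : ℂ, ‖c‖ ≤ R →
      ‖y z n - c • y x n‖ ≤ ‖z - c • x‖ + 2 * ε := by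
    refine (Filter.eventually_all_finset F).2 fun x _ => (Filter.eventually_all_finset F).2
      fun z _ => ?_
    have hD : 0 < ‖x‖ + ‖y x‖ + 1 := by positivity
    obtain ⟨t, ht, hcov⟩ := Metric.totallyBounded_iff.1
      (isCompact_closedBall (0 : ℂ) R).totallyBounded (ε / (‖x‖ + ‖y x‖ + 1)) (div_pos hε hD)
    have h5 : ∀ᶠ n in (ω : Filter ℕ), ∀ c' ∈ t,
        ‖y z n - c' • y x n‖ ≤ ‖z - c' • x‖ + ε := by
      refine (Filter.eventually_all_finite ht).2 fun c' _ => ?_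
      refine E2a_ev (y z - c' • y x) ?_
      rw [map_sub, map_smul, hy, hy, ← map_smul, ← map_sub]
      have := hc (z - c' • x)
      linarith
    filter_upwards [h5] with n hn c hcR
    obtain ⟨c', hc't, hcc'⟩ := Set.mem_iUnion₂.1 (hcov (mem_closedBall_zero_iff.2 hcR))
    have e1 := hn c' hc't
    rw [Metric.mem_ball, dist_eq_norm] at hcc'
    have e2 : ‖y z n - c • y x n‖ ≤ ‖y z n - c' • y x n‖ + ‖c - c'‖ * ‖y x n‖ := by
      rw [← norm_smul]
      have : y z n - c • y x n = (y z n - c' • y x n) - (c - c') • y x n := by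
        rw [sub_smul]; abel
      rw [this]
      exact norm_sub_le _ _
    have e3 : ‖z - c' • x‖ ≤ ‖z - c • x‖ + ‖c - c'‖ * ‖x‖ := by
      rw [← norm_smul]
      have : z - c' • x = (z - c • x) + (c - c') • x := by
        rw [sub_smul]; abel
      rw [this]
      exact norm_add_le _ _
    have e4 : ‖y x n‖ ≤ ‖y x‖ := aom_apply_le (y x) n
    have e5 : ‖c - c'‖ * ‖y x n‖ + ‖c - c'‖ * ‖x‖ ≤ ε := by
      have e6 : ‖c - c'‖ * (‖x‖ + ‖y x‖ + 1) ≤ ε := by
        have := mul_le_mul_of_nonneg_right hcc'.le hD.le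
        rwa [div_mul_cancel₀ _ hD.ne'] at this
      have e7 : ‖c - c'‖ * ‖y x n‖ ≤ ‖c - c'‖ * ‖y x‖ :=
        mul_le_mul_of_nonneg_left e4 (norm_nonneg _)
      have e8 := norm_nonneg (c - c')
      nlinarith
    linarith
  have h6 : ∀ᶠ n in (ω : Filter ℕ), ∀ x ∈ F, ‖y x n - 1‖ ≤ ‖x - 1‖ + 2 * ε := by
    refine (Filter.eventually_all_finset F).2 fun x _ => ?_
    refine E2a_ev (y x - 1) ?_
    rw [map_sub, map_one, hy, ← map_one γ, ← map_sub]
    have := hc (x - 1)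
    linarith
  have h7 : ∀ᶠ n in (ω : Filter ℕ), ∀ x ∈ F, |‖y x n‖ - ‖x‖| ≤ 2 * ε := by
    refine (Filter.eventually_all_finset F).2 fun x hx => ?_
    have h8 := (omk_norm O ω (y x)).eventually (Metric.ball_mem_nhds _ hε)
    filter_upwards [h8] with n hn
    rw [hy, Real.dist_eq, abs_lt] at hn
    have h9 := h x hx
    have h10 := hc x
    rw [abs_le]
    constructor <;> linarith [hn.1, hn.2]
  obtain ⟨n, ⟨⟨⟨⟨⟨k1, k2⟩, k3⟩, k4⟩, k6⟩, k7⟩⟩ :=
    (((((h1.and h2).and h3).and h4).and h6).and h7).exists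
  exact ⟨fun x => y x n, k1, k2, k3, fun c hcR x hx z hz => k4 x hx z hz c hcR, k6, k7⟩

end Vale.Agent.P083K
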