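import Vale.Agent.P083K.Defs3

open Filter Topology Matrix
open scoped ENNReal

namespace Vale.Agent.P083K

open Vale.Agent.P101K

/-- nearest point among the first points of a dense sequence -/
theorem E2b_near (P : Type) [CStarAlgebra P] [TopologicalSpace.SeparableSpace P] :
    ∃ (F : ℕ → Finset P) (near : ℕ → P → P), (∀ n a, near n a ∈ F n) ∧
      (∀ a, Tendsto (fun n => near n a) atTop (𝓝 a)) ∧
      ∀ a, ∃ C : ℝ, ∀ n, ‖near n a‖ ≤ C := by
  classical
  let p : ℕ → P := TopologicalSpace.denseSeq P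
  let F : ℕ → Finset P := fun n => (Finset.range (n + 1)).image p
  have hne : ∀ n, (F n).Nonempty := fun n => ⟨p 0, Finset.mem_image_of_mem _ (by simp)⟩
  have hmem : ∀ k n, k ≤ n → p k ∈ F n := fun k n h =>
    Finset.mem_image_of_mem _ (Finset.mem_range.2 (by omega))
  have hex : ∀ n a, ∃ x ∈ F n, ∀ y ∈ F n, ‖x - a‖ ≤ ‖y - a‖ := fun n a =>
    Finset.exists_min_image (F n) (fun x => ‖x - a‖) (hne n)
  choose near h1 h2 using hex
  refine ⟨F, near, h1, fun a => ?_, fun a => ⟨‖a‖ + ‖p 0 - a‖, fun n => ?_⟩⟩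
  · rw [tendsto_iff_norm_sub_tendsto_zero, Metric.tendsto_atTop]
    intro ε hε
    obtain ⟨k, hk⟩ := (TopologicalSpace.denseRange_denseSeq P).exists_dist_lt a hε
    refine ⟨k, fun n hn => ?_⟩
    rw [dist_zero_right, norm_norm]
    refine (h2 n a (p k) (hmem k n hn)).trans_lt ?_
    rw [dist_comm, dist_eq_norm] at hk
    exact hk
  · have h3 := h2 n a (p 0) (hmem 0 n (Nat.zero_le n))
    calc ‖near n a‖ = ‖a + (near n a - a)‖ := by rw [add_sub_cancel]
      _ ≤ ‖a‖ + ‖near n a - a‖ := norm_add_le _ _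
      _ ≤ _ := by linarith

/-- (E2b) `p` a dense sequence, `F_n = {p_0, ..., p_n}`, `θ_n` for `(F_n, 1/(n+1), n)`; `φ n a = θ_n (a_n)`
with `a_n` a nearest point of `a` in `F_n`; `‖a - a_n‖ → 0`. -/
theorem apx_embeds {ω : Ultrafilter ℕ} (hω : (ω : Filter ℕ) ≤ atTop) {O P : Type} [CStarAlgebra O]
    [CStarAlgebra P] [TopologicalSpace.SeparableSpace P]
    (h : ∀ (F : Finset P) (ε R : ℝ), 0 < ε → ∃ θ : P → O, Apx F ε R θ) : Embeds ω O P := by
  obtain ⟨F, near, hF, hnear, hbd⟩ := E2b_near P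
  have hn : ∀ a, Tendsto (fun n => near n a) ω (𝓝 a) := fun a => (hnear a).mono_left hω
  have hθ : ∀ n : ℕ, ∃ θ : P → O, Apx (F n) (1 / ((n : ℝ) + 1)) n θ := fun n =>
    h (F n) _ _ (by positivity)
  choose θ hθ using hθ
  have he : Tendsto (fun n : ℕ => 1 / ((n : ℝ) + 1)) ω (𝓝 0) :=
    tendsto_one_div_add_atTop_nhds_zero_nat.mono_left hω
  have key : ∀ (g : ℕ → P) (f : ℕ → O), Tendsto g ω (𝓝 0) →
      (∀ᶠ n in (ω : Filter ℕ), ‖f n‖ ≤ ‖g n‖ + 1 / ((n : ℝ) + 1)) →
      Tendsto (fun n => ‖f n‖) ω (𝓝 0) := by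
    intro g f hg hb
    have h1 := hg.norm.add he
    rw [norm_zero, add_zero] at h1
    exact squeeze_zero' (Eventually.of_forall fun n => norm_nonneg _) hb h1
  refine ⟨fun n a => θ n (near n a), fun a => ?_, ?_, fun a b => ?_, fun a b => ?_, fun c a => ?_,
    fun a => ?_, fun a => ?_⟩
  · obtain ⟨C, hC⟩ := hbd a
    refine ⟨C + 1, fun n => ?_⟩
    have h1 := (hθ n).2.2.2.2.2 (near n a) (hF n a)
    have h2 := (abs_le.1 h1).2
    have h3 := hC n
    have h4 : 1 / ((n : ℝ) + 1) ≤ 1 := by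
      rw [div_le_one (by positivity)]
      have : (0 : ℝ) ≤ n := Nat.cast_nonneg n
      linarith
    linarith
  · refine key (fun n => near n 1 - 1) _ ?_ (Eventually.of_forall fun n =>
      (hθ n).2.2.2.2.1 (near n 1) (hF n 1))
    have h1 := (hn 1).sub_const (1 : P)
    rwa [sub_self] at h1
  · refine key (fun n => near n (a + b) - (near n a + near n b)) _ ?_
      (Eventually.of_forall fun n => (hθ n).1 _ (hF n a) _ (hF n b) _ (hF n (a + b)))
    have h1 := (hn (a + b)).sub ((hn a).add (hn b))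
    rwa [sub_self] at h1
  · refine key (fun n => near n (a * b) - near n a * near n b) _ ?_
      (Eventually.of_forall fun n => (hθ n).2.1 _ (hF n a) _ (hF n b) _ (hF n (a * b)))
    have h1 := (hn (a * b)).sub ((hn a).mul (hn b))
    rwa [sub_self] at h1
  · have hc : ∀ᶠ n : ℕ in (ω : Filter ℕ), ‖c‖ ≤ (n : ℝ) :=
      hω (tendsto_natCast_atTop_atTop.eventually (eventually_ge_atTop ‖c‖))
    refine key (fun n => near n (c • a) - c • near n a) _ ?_ ?_
    · have h1 := (hn (c • a)).sub ((hn a).const_smul c)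
      rwa [sub_self] at h1
    · filter_upwards [hc] with n hcn
      exact (hθ n).2.2.2.1 c hcn _ (hF n a) _ (hF n (c • a))
  · refine key (fun n => near n (star a) - star (near n a)) _ ?_
      (Eventually.of_forall fun n => (hθ n).2.2.1 _ (hF n a) _ (hF n (star a)))
    have h1 := (hn (star a)).sub (hn a).star
    rwa [sub_self] at h1
  · have h1 : Tendsto (fun n => ‖θ n (near n a)‖ - ‖near n a‖) ω (𝓝 0) := by
      refine squeeze_zero_norm (fun n => ?_) he
      rw [Real.norm_eq_abs]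
      exact (hθ n).2.2.2.2.2 (near n a) (hF n a)
    have h2 := h1.add (hn a).norm
    rw [zero_add] at h2
    refine h2.congr fun n => ?_
    ring

end Vale.Agent.P083K
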