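import Vale.Agent.P083K.Defs2

open Filter Topology Matrix
open scoped ENNReal

namespace Vale.Agent.P083K

open Vale.Agent.P101K

private theorem G1_sqrt_gen {H K : Type*} [NormedAddCommGroup H] [InnerProductSpace ℂ H]
    [CompleteSpace H] [NormedAddCommGroup K] [InnerProductSpace ℂ K] [CompleteSpace K]
    (V : H →L[ℂ] K) :
    ∃ a : H →L[ℂ] H, a.IsPositive ∧
      a * a = (ContinuousLinearMap.adjoint V).comp V ∧ ∀ x, ‖a x‖ = ‖V x‖ := by
  have hp : ((ContinuousLinearMap.adjoint V).comp V).IsPositive :=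
    ContinuousLinearMap.isPositive_adjoint_comp_self V
  have h0 : 0 ≤ (ContinuousLinearMap.adjoint V).comp V :=
    (ContinuousLinearMap.nonneg_iff_isPositive _).2 hp
  have ha : CFC.sqrt ((ContinuousLinearMap.adjoint V).comp V) *
      CFC.sqrt ((ContinuousLinearMap.adjoint V).comp V) =
      (ContinuousLinearMap.adjoint V).comp V := CFC.sqrt_mul_sqrt_self _ h0
  have ha0 : (CFC.sqrt ((ContinuousLinearMap.adjoint V).comp V)).IsPositive :=
    (ContinuousLinearMap.nonneg_iff_isPositive _).1 (CFC.sqrt_nonneg _)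
  obtain ⟨a, had⟩ : ∃ a, a = CFC.sqrt ((ContinuousLinearMap.adjoint V).comp V) := ⟨_, rfl⟩
  rw [← had] at ha ha0
  refine ⟨a, ha0, ha, fun x => ?_⟩
  have hsa : ContinuousLinearMap.adjoint a = a := ha0.isSelfAdjoint.adjoint_eq
  have h1 : inner ℂ (a x) (a x) = inner ℂ (V x) (V x) := by
    have e1 : inner ℂ (a x) (a x) = inner ℂ x ((a * a) x) := by
      rw [← ContinuousLinearMap.adjoint_inner_right, hsa]
      rfl
    rw [e1, ha, ContinuousLinearMap.comp_apply, ContinuousLinearMap.adjoint_inner_right]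
  rw [inner_self_eq_norm_sq_to_K, inner_self_eq_norm_sq_to_K] at h1
  have h2 : ‖a x‖ ^ 2 = ‖V x‖ ^ 2 := by exact_mod_cast h1
  exact (sq_eq_sq₀ (norm_nonneg _) (norm_nonneg _)).1 h2

private theorem G1_single {k : ℕ} (x : EuclideanSpace ℂ (Fin k)) :
    x = ∑ i, x i • EuclideanSpace.single i (1 : ℂ) := by
  have := (EuclideanSpace.basisFun (Fin k) ℂ).sum_repr x
  simpa using this.symm

private theorem G1_lin {k N : ℕ} (v : Fin k → EuclideanSpace ℂ (Fin N)) :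
    ∃ V : EuclideanSpace ℂ (Fin k) →L[ℂ] EuclideanSpace ℂ (Fin N),
      ∀ i, V (EuclideanSpace.single i (1 : ℂ)) = v i := by
  refine ⟨LinearMap.toContinuousLinearMap
    ((EuclideanSpace.basisFun (Fin k) ℂ).toBasis.constr ℂ v), fun i => ?_⟩
  have h1 : EuclideanSpace.single i (1 : ℂ) = (EuclideanSpace.basisFun (Fin k) ℂ).toBasis i := by
    simp
  rw [h1, LinearMap.coe_toContinuousLinearMap', Module.Basis.constr_basis]

private theorem G1_norm {k : ℕ} (T : EuclideanSpace ℂ (Fin k) →L[ℂ] EuclideanSpace ℂ (Fin k))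
    {δ : ℝ} (hδ : 0 ≤ δ) (h : ∀ i j, ‖inner ℂ (EuclideanSpace.single i (1 : ℂ))
      (T (EuclideanSpace.single j (1 : ℂ)))‖ ≤ δ) : ‖T‖ ≤ (k : ℝ) ^ 2 * δ := by
  have h1 : ∀ j, ‖T (EuclideanSpace.single j (1 : ℂ))‖ ≤ k * δ := by
    intro j
    rw [G1_single (T (EuclideanSpace.single j (1 : ℂ)))]
    refine (norm_sum_le _ _).trans ?_
    refine (Finset.sum_le_sum (g := fun _ => δ) fun i _ => ?_).trans ?_
    · rw [norm_smul]
      have h2 := h i j
      rw [EuclideanSpace.inner_single_left] at h2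
      simpa using h2
    · rw [Finset.sum_const, Finset.card_univ, Fintype.card_fin, nsmul_eq_mul]
  refine ContinuousLinearMap.opNorm_le_bound _ (by positivity) fun x => ?_
  have h3 : T x = ∑ j, x j • T (EuclideanSpace.single j (1 : ℂ)) := by
    conv_lhs => rw [G1_single x]
    rw [map_sum]
    simp only [map_smul]
  rw [h3]
  refine (norm_sum_le _ _).trans ?_
  refine (Finset.sum_le_sum (g := fun _ => ‖x‖ * (k * δ)) fun j _ => ?_).trans ?_
  · rw [norm_smul]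
    exact mul_le_mul (PiLp.norm_apply_le x j) (h1 j) (norm_nonneg _) (norm_nonneg _)
  · rw [Finset.sum_const, Finset.card_univ, Fintype.card_fin, nsmul_eq_mul]
    apply le_of_eq
    ring

private theorem G1_iso {k N : ℕ} (h : k ≤ N) :
    Nonempty (EuclideanSpace ℂ (Fin k) →ₗᵢ[ℂ] EuclideanSpace ℂ (Fin N)) := by
  have hv : Orthonormal ℂ (EuclideanSpace.basisFun (Fin k) ℂ).toBasis := by
    rw [OrthonormalBasis.coe_toBasis]
    exact (EuclideanSpace.basisFun (Fin k) ℂ).orthonormal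
  have hf : Orthonormal ℂ (((EuclideanSpace.basisFun (Fin k) ℂ).toBasis.constr ℂ
      (fun i => EuclideanSpace.basisFun (Fin N) ℂ (Fin.castLE h i))) ∘
        (EuclideanSpace.basisFun (Fin k) ℂ).toBasis) := by
    have e : (((EuclideanSpace.basisFun (Fin k) ℂ).toBasis.constr ℂ
      (fun i => EuclideanSpace.basisFun (Fin N) ℂ (Fin.castLE h i))) ∘
        (EuclideanSpace.basisFun (Fin k) ℂ).toBasis) =
        (EuclideanSpace.basisFun (Fin N) ℂ) ∘ (Fin.castLE h) := by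
      funext i
      rw [Function.comp_apply, Module.Basis.constr_basis]
      rfl
    rw [e]
    exact (EuclideanSpace.basisFun (Fin N) ℂ).orthonormal.comp _ (Fin.castLE_injective h)
  exact ⟨LinearMap.isometryOfOrthonormal _ hv hf⟩

theorem gram_near
    (h1 : ∀ {k : ℕ} (a b : EuclideanSpace ℂ (Fin k) →L[ℂ] EuclideanSpace ℂ (Fin k)),
      a.IsPositive → b.IsPositive → ‖a - b‖ ^ 2 ≤ ‖a * a - b * b‖)
    (h2 : ∀ {k N : ℕ} (J : EuclideanSpace ℂ (Fin k) →ₗᵢ[ℂ] EuclideanSpace ℂ (Fin N))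
      (V : EuclideanSpace ℂ (Fin k) →L[ℂ] EuclideanSpace ℂ (Fin N))
      (a : EuclideanSpace ℂ (Fin k) →L[ℂ] EuclideanSpace ℂ (Fin k)), (∀ x, ‖a x‖ = ‖V x‖) →
      ∃ U : EuclideanSpace ℂ (Fin N) ≃ₗᵢ[ℂ] EuclideanSpace ℂ (Fin N), ∀ x, U (J (a x)) = V x)
    (k : ℕ) {ε : ℝ} (hε : 0 < ε) : ∃ δ : ℝ, 0 < δ ∧
      ∀ (N : ℕ), k ≤ N → ∀ v w : Fin k → EuclideanSpace ℂ (Fin N),
        (∀ i j, ‖inner ℂ (v i) (v j) - inner ℂ (w i) (w j)‖ < δ) →
        ∃ U : EuclideanSpace ℂ (Fin N) ≃ₗᵢ[ℂ] EuclideanSpace ℂ (Fin N), ∀ i, ‖U (w i) - v i‖ < ε := by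
  refine ⟨ε ^ 2 / (2 * ((k : ℝ) ^ 2 + 1)), by positivity, ?_⟩
  intro N hN v w hvw
  obtain ⟨δ, hδd⟩ : ∃ δ, δ = ε ^ 2 / (2 * ((k : ℝ) ^ 2 + 1)) := ⟨_, rfl⟩
  have hδ : 0 < δ := by
    rw [hδd]
    positivity
  rw [← hδd] at hvw
  obtain ⟨V, hV⟩ := G1_lin v
  obtain ⟨W, hW⟩ := G1_lin w
  obtain ⟨a, ha, haa, han⟩ := G1_sqrt_gen V
  obtain ⟨b, hb, hbb, hbn⟩ := G1_sqrt_gen W
  obtain ⟨J⟩ := G1_iso hN
  obtain ⟨UV, hUV⟩ := h2 J V a han
  obtain ⟨UW, hUW⟩ := h2 J W b hbn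
  have hT : ‖a * a - b * b‖ ≤ (k : ℝ) ^ 2 * δ := by
    rw [haa, hbb]
    refine G1_norm _ hδ.le fun i j => ?_
    rw [_root_.sub_apply, inner_sub_right, ContinuousLinearMap.comp_apply,
      ContinuousLinearMap.comp_apply, ContinuousLinearMap.adjoint_inner_right,
      ContinuousLinearMap.adjoint_inner_right, hV, hV, hW, hW]
    exact (hvw i j).le
  have hab : ‖a - b‖ < ε := by
    have h3 : ‖a - b‖ ^ 2 < ε ^ 2 := by
      refine ((h1 a b ha hb).trans hT).trans_lt ?_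
      rw [hδd]
      have hk : (0 : ℝ) ≤ (k : ℝ) ^ 2 := by positivity
      rw [← mul_div_assoc, div_lt_iff₀ (by positivity)]
      have : 0 < ε ^ 2 := by positivity
      nlinarith
    exact lt_of_pow_lt_pow_left₀ 2 hε.le h3
  refine ⟨UW.symm.trans UV, fun i => ?_⟩
  have e1 : (UW.symm.trans UV) (w i) = UV (J (b (EuclideanSpace.single i (1 : ℂ)))) := by
    rw [← hW i, ← hUW]
    simp
  have e2 : v i = UV (J (a (EuclideanSpace.single i (1 : ℂ)))) := by
    rw [hUV, hV]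
  rw [e1, e2, ← map_sub, ← map_sub, LinearIsometryEquiv.norm_map, LinearIsometry.norm_map]
  have e3 : b (EuclideanSpace.single i (1 : ℂ)) - a (EuclideanSpace.single i (1 : ℂ)) =
      -((a - b) (EuclideanSpace.single i (1 : ℂ))) := by
    rw [_root_.sub_apply, neg_sub]
  rw [e3, norm_neg]
  refine ((a - b).le_opNorm _).trans_lt ?_
  have e4 : ‖EuclideanSpace.single i (1 : ℂ)‖ = 1 := by simp
  rw [e4, mul_one]
  exact hab

end Vale.Agent.P083K
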