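import Vale.Agent.P083K.Defs2

open Filter Topology Matrix
open scoped ENNReal

namespace Vale.Agent.P083K

open Vale.Agent.P101K

theorem G1a_norm {k : ℕ} (T : EuclideanSpace ℂ (Fin k) →L[ℂ] EuclideanSpace ℂ (Fin k))
    (hT : (T : EuclideanSpace ℂ (Fin k) →ₗ[ℂ] EuclideanSpace ℂ (Fin k)).IsSymmetric)
    (r : ℝ) (hr : 0 ≤ r)
    (h : ∀ (c : ℝ) (x : EuclideanSpace ℂ (Fin k)), ‖x‖ = 1 → T x = (c : ℂ) • x → |c| ≤ r) :
    ‖T‖ ≤ r := by
  have hn : Module.finrank ℂ (EuclideanSpace ℂ (Fin k)) = k := by simp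
  refine T.opNorm_le_bound hr ?_
  intro v
  have h1 : ∀ i, |hT.eigenvalues hn i| ≤ r := by
    intro i
    refine h _ (hT.eigenvectorBasis hn i) ((hT.eigenvectorBasis hn).orthonormal.1 i) ?_
    exact hT.apply_eigenvectorBasis hn i
  have h2 : ‖T v‖ ^ 2 ≤ (r * ‖v‖) ^ 2 := by
    rw [← (hT.eigenvectorBasis hn).repr.norm_map (T v), EuclideanSpace.norm_sq_eq, mul_pow,
      ← (hT.eigenvectorBasis hn).repr.norm_map v, EuclideanSpace.norm_sq_eq, Finset.mul_sum]
    refine Finset.sum_le_sum ?_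
    intro i _
    have h3 := hT.eigenvectorBasis_apply_self_apply hn v i
    have h4 : (hT.eigenvectorBasis hn).repr (T v) i
        = hT.eigenvalues hn i * (hT.eigenvectorBasis hn).repr v i := h3
    rw [h4, norm_mul, mul_pow]
    refine mul_le_mul_of_nonneg_right ?_ (sq_nonneg _)
    rw [Complex.norm_real, Real.norm_eq_abs]
    exact pow_le_pow_left₀ (abs_nonneg _) (h1 i) 2
  exact le_of_sq_le_sq h2 (by positivity)

/-- (G1a) finite dimensions: take a unit eigenvector `x` of the self-adjoint `a - b` with eigenvalue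
`c`, `|c| = ‖a - b‖`; `⟨x, (a² - b²) x⟩ = c ⟨x, (a + b) x⟩` and `⟨x, (a + b) x⟩ ≥ |⟨x, (a - b) x⟩| = |c|`. -/
theorem pos_sq_near {k : ℕ} (a b : EuclideanSpace ℂ (Fin k) →L[ℂ] EuclideanSpace ℂ (Fin k))
    (ha : a.IsPositive) (hb : b.IsPositive) : ‖a - b‖ ^ 2 ≤ ‖a * a - b * b‖ := by
  have hsym : ((a - b : EuclideanSpace ℂ (Fin k) →L[ℂ] EuclideanSpace ℂ (Fin k)) :
      EuclideanSpace ℂ (Fin k) →ₗ[ℂ] EuclideanSpace ℂ (Fin k)).IsSymmetric := by
    exact ha.isSymmetric.sub hb.isSymmetric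
  have key : ‖a - b‖ ≤ Real.sqrt ‖a * a - b * b‖ := by
    refine G1a_norm (a - b) hsym _ (Real.sqrt_nonneg _) ?_
    intro c x hx hc
    refine Real.le_sqrt_of_sq_le ?_
    have e1 : inner ℂ x ((a * a - b * b) x)
        = (c : ℂ) * inner ℂ x (a x) + (c : ℂ) * inner ℂ x (b x) := by
      have h1 : (a * a - b * b) x = a ((a - b) x) + (a - b) (b x) := by
        simp only [ContinuousLinearMap.sub_apply, ContinuousLinearMap.mul_apply', map_sub]
        abel
      rw [h1, inner_add_right, hc]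
      have h2 : inner ℂ x ((a - b) (b x)) = inner ℂ ((a - b) x) (b x) := (hsym x (b x)).symm
      rw [h2, hc, map_smul, inner_smul_right, inner_smul_left, Complex.conj_ofReal]
    have hA := ha.re_inner_nonneg_right x
    have hB := hb.re_inner_nonneg_right x
    have e2 : (inner ℂ x (a x)).re - (inner ℂ x (b x)).re = c := by
      have h3 : inner ℂ x ((a - b) x) = (c : ℂ) * inner ℂ x x := by
        rw [hc, inner_smul_right]
      rw [ContinuousLinearMap.sub_apply, inner_sub_right, inner_self_eq_norm_sq_to_K, hx] at h3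
      have h4 := congrArg Complex.re h3
      simp at h4
      exact h4
    have e3 : (inner ℂ x ((a * a - b * b) x)).re
        = c * ((inner ℂ x (a x)).re + (inner ℂ x (b x)).re) := by
      rw [e1, Complex.add_re, Complex.re_ofReal_mul, Complex.re_ofReal_mul]
      ring
    have h5 : |(inner ℂ x ((a * a - b * b) x)).re| ≤ ‖a * a - b * b‖ := by
      refine (Complex.abs_re_le_norm _).trans ?_
      refine (norm_inner_le_norm _ _).trans ?_
      have h6 := (a * a - b * b).le_opNorm x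
      rw [hx, mul_one] at h6
      rw [hx, one_mul]
      exact h6
    rw [e3, abs_mul] at h5
    have hA' : 0 ≤ (inner ℂ x (a x)).re := hA
    have hB' : 0 ≤ (inner ℂ x (b x)).re := hB
    have h7 : |c| ≤ |(inner ℂ x (a x)).re + (inner ℂ x (b x)).re| := by
      rw [abs_of_nonneg (add_nonneg hA' hB'), abs_le]
      constructor <;> linarith
    have h8 : |c| ^ 2 ≤ |c| * |(inner ℂ x (a x)).re + (inner ℂ x (b x)).re| := by
      rw [sq]
      exact mul_le_mul_of_nonneg_left h7 (abs_nonneg c)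
    exact h8.trans h5
  have h9 := pow_le_pow_left₀ (norm_nonneg _) key 2
  rw [Real.sq_sqrt (norm_nonneg _)] at h9
  exact h9

end Vale.Agent.P083K
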