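import Vale.Agent.P083K.Defs2

open Filter Topology Matrix
open scoped ENNReal

namespace Vale.Agent.P083K

open Vale.Agent.P101K

/-- (G1b) on the range `S` of `J ∘ a` the map `J (a x) ↦ V x` is a well defined linear isometry;
extend it by `LinearIsometry.extend` (finite dimension), an isometry of a finite dimensional space
onto itself is an equivalence (`LinearIsometry.toLinearIsometryEquiv`). -/
theorem polar_ext {k N : ℕ} (J : EuclideanSpace ℂ (Fin k) →ₗᵢ[ℂ] EuclideanSpace ℂ (Fin N))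
    (V : EuclideanSpace ℂ (Fin k) →L[ℂ] EuclideanSpace ℂ (Fin N))
    (a : EuclideanSpace ℂ (Fin k) →L[ℂ] EuclideanSpace ℂ (Fin k)) (h : ∀ x, ‖a x‖ = ‖V x‖) :
    ∃ U : EuclideanSpace ℂ (Fin N) ≃ₗᵢ[ℂ] EuclideanSpace ℂ (Fin N), ∀ x, U (J (a x)) = V x := by
  obtain ⟨f, hf⟩ : ∃ f : EuclideanSpace ℂ (Fin k) →ₗ[ℂ] EuclideanSpace ℂ (Fin N),
      ∀ x, f x = J (a x) := ⟨J.toLinearMap ∘ₗ a.toLinearMap, fun _ => rfl⟩
  obtain ⟨g, hg⟩ := f.rangeRestrict.exists_rightInverse_of_surjective f.range_rangeRestrict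
  have hg' : ∀ s : LinearMap.range f, f (g s) = s := fun s => by
    have h1 := congrArg Subtype.val (LinearMap.congr_fun hg s)
    exact h1
  have hVg : ∀ x y, J (a x) = J (a y) → V x = V y := by
    intro x y hxy
    have h1 : a x = a y := J.injective hxy
    have h2 : ‖V (x - y)‖ = 0 := by
      rw [← h, map_sub, h1, sub_self, norm_zero]
    rw [norm_eq_zero, map_sub, sub_eq_zero] at h2
    exact h2
  have hn : ∀ s : LinearMap.range f, ‖(V.toLinearMap ∘ₗ g) s‖ = ‖s‖ := by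
    intro s
    have h1 : ‖(V.toLinearMap ∘ₗ g) s‖ = ‖V (g s)‖ := rfl
    rw [h1, ← h, ← J.norm_map, ← hf, hg']
    rfl
  obtain ⟨L, hL⟩ : ∃ L : LinearMap.range f →ₗᵢ[ℂ] EuclideanSpace ℂ (Fin N),
      ∀ s, L s = V (g s) := ⟨⟨V.toLinearMap ∘ₗ g, hn⟩, fun _ => rfl⟩
  refine ⟨L.extend.toLinearIsometryEquiv rfl, fun x => ?_⟩
  have hx : J (a x) = ((⟨f x, LinearMap.mem_range_self f x⟩ : LinearMap.range f) :
      EuclideanSpace ℂ (Fin N)) := (hf x).symm
  rw [LinearIsometry.coe_toLinearIsometryEquiv, hx, LinearIsometry.extend_apply, hL]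
  refine hVg _ _ ?_
  rw [← hf, ← hf, hg']

end Vale.Agent.P083K
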