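import Vale.Agent.P083K.Defs2

open Filter Topology Matrix
open scoped ENNReal

namespace Vale.Agent.P083K

open Vale.Agent.P101K

/-- (G2a) induction on `m`: `S_(j) = S'_(j mod 2^m) ∘ s_(j / 2^m)` (or `s_(j mod 2) ∘ S'_(j / 2)`). -/
theorem word_iso {s : Fin 2 → (H0 →L[ℂ] H0)} (hs : IsCuntz s) (m : ℕ) :
    ∃ S : Fin (2 ^ m) → O2 s, ∀ (j : Fin (2 ^ m)) (n : ℕ),
      (S j : H0 →L[ℂ] H0) (bv n) = bv (2 ^ m * n + j) := by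
  have hmem : ∀ i, s i ∈ O2 s := fun i =>
    StarSubalgebra.le_topologicalClosure _ (StarAlgebra.subset_adjoin ℂ _ ⟨i, rfl⟩)
  induction m with
  | zero =>
    refine ⟨fun _ => 1, fun j n => ?_⟩
    have h1 : (2 : ℕ) ^ 0 = 1 := pow_zero 2
    have hj : (j : ℕ) = 0 := by
      have h2 : (j : ℕ) < 2 ^ 0 := j.2
      omega
    have h3 : (2 : ℕ) ^ 0 * n + (j : ℕ) = n := by
      rw [hj]
      ring
    rw [h3]
    rfl
  | succ m ih =>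
    obtain ⟨S, hS⟩ := ih
    have hlt : ∀ j : Fin (2 ^ (m + 1)), (j : ℕ) / 2 < 2 ^ m := fun j => by
      have h1 : (j : ℕ) < 2 ^ (m + 1) := j.2
      have h2 : (2 : ℕ) ^ (m + 1) = 2 ^ m * 2 := pow_succ 2 m
      omega
    have hlt2 : ∀ j : Fin (2 ^ (m + 1)), (j : ℕ) % 2 < 2 := fun j => Nat.mod_lt _ (by norm_num)
    refine ⟨fun j => ⟨s ⟨(j : ℕ) % 2, hlt2 j⟩, hmem _⟩ * S ⟨(j : ℕ) / 2, hlt j⟩, fun j n => ?_⟩
    show s ⟨(j : ℕ) % 2, hlt2 j⟩ ((S ⟨(j : ℕ) / 2, hlt j⟩ : H0 →L[ℂ] H0) (bv n)) = _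
    rw [hS, hs]
    congr 1
    show 2 * (2 ^ m * n + (j : ℕ) / 2) + (j : ℕ) % 2 = 2 ^ (m + 1) * n + (j : ℕ)
    have h1 : 2 * ((j : ℕ) / 2) + (j : ℕ) % 2 = (j : ℕ) := Nat.div_add_mod _ _
    have h2 : 2 ^ (m + 1) * n = 2 * (2 ^ m * n) := by
      rw [pow_succ]
      ring
    omega

end Vale.Agent.P083K
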