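import Vale.Agent.P083K.Defs2

open Filter Topology Matrix
open scoped ENNReal

namespace Vale.Agent.P083K

open Vale.Agent.P101K

theorem G2b_coord (v : H0) (n : ℕ) : v n = inner ℂ (bv n) v := by
  unfold bv
  rw [lp.inner_single_left]
  simp

theorem G2b_bv (k n : ℕ) : (bv k) n = if n = k then (1 : ℂ) else 0 := by
  unfold bv
  rw [lp.single_apply]
  by_cases h : n = k
  · subst h
    simp
  · rw [if_neg h]
    simp [Pi.single_apply, h]

theorem G2b_ext {T T' : H0 →L[ℂ] H0} (h : ∀ n, T (bv n) = T' (bv n)) : T = T' := by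
  ext1 f
  have h1 := lp.hasSum_single (p := 2) (by norm_num) f
  have h2 : ∀ i, T (lp.single 2 i (f i)) = T' (lp.single 2 i (f i)) := by
    intro i
    have e : lp.single 2 i (f i) = f i • bv i := by
      unfold bv
      rw [← lp.single_smul, smul_eq_mul, mul_one]
    rw [e, map_smul, map_smul, h]
  have h3 := h1.mapL T
  have h4 := h1.mapL T'
  have h5 : (fun i => T (lp.single 2 i (f i))) = fun i => T' (lp.single 2 i (f i)) := funext h2
  rw [h5] at h3
  exact h3.unique h4

theorem G2b_adj {N : ℕ} {T : H0 →L[ℂ] H0} {j : ℕ} (hj : j < N)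
    (hT : ∀ n, T (bv n) = bv (N * n + j)) (k : ℕ) :
    star T (bv k) = if k % N = j then bv (k / N) else 0 := by
  apply lp.ext
  funext n
  rw [G2b_coord, ContinuousLinearMap.star_eq_adjoint, ContinuousLinearMap.adjoint_inner_right, hT,
    ← G2b_coord, G2b_bv]
  by_cases h : k % N = j
  · rw [if_pos h, G2b_bv]
    have h1 := Nat.div_add_mod k N
    by_cases h2 : n = k / N
    · rw [if_pos h2, if_pos]
      rw [h2, ← h]
      exact h1
    · rw [if_neg h2, if_neg]
      intro h3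
      apply h2
      rw [← h3, Nat.mul_add_div (by omega), Nat.div_eq_of_lt hj, add_zero]
  · rw [if_neg h, if_neg]
    · rfl
    · intro h3
      apply h
      rw [← h3, Nat.mul_add_mod, Nat.mod_eq_of_lt hj]

/-- matrices over `S` -/
noncomputable def G2b_phi {R : Type} [Ring R] [StarRing R] [Algebra ℂ R] {N : ℕ} (S : Fin N → R)
    (c : Matrix (Fin N) (Fin N) ℂ) : R :=
  ∑ i, ∑ j, c i j • (S i * star (S j))

theorem G2b_mul {R : Type} [Ring R] [StarRing R] [Algebra ℂ R] {N : ℕ}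
    {S : Fin N → R} (h1 : ∀ i j, star (S i) * S j = if i = j then 1 else 0)
    (c d : Matrix (Fin N) (Fin N) ℂ) : G2b_phi S c * G2b_phi S d = G2b_phi S (c * d) := by
  unfold G2b_phi
  rw [Finset.sum_mul]
  refine Finset.sum_congr rfl fun i _ => ?_
  have h2 : ∀ j k l, (c i j • (S i * star (S j))) * (d k l • (S k * star (S l))) =
      if j = k then (c i j * d k l) • (S i * star (S l)) else 0 := by
    intro j k l
    rw [smul_mul_smul_comm]
    have h3 : S i * star (S j) * (S k * star (S l)) = S i * (star (S j) * S k) * star (S l) := by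
      simp only [mul_assoc]
    rw [h3, h1]
    by_cases h : j = k
    · rw [if_pos h, if_pos h, mul_one]
    · rw [if_neg h, if_neg h, mul_zero, zero_mul, smul_zero]
  have h4 : ∀ j, (c i j • (S i * star (S j))) * (∑ k, ∑ l, d k l • (S k * star (S l))) =
      ∑ l, (c i j * d j l) • (S i * star (S l)) := by
    intro j
    rw [Finset.mul_sum]
    rw [Finset.sum_eq_single j]
    · rw [Finset.mul_sum]
      refine Finset.sum_congr rfl fun l _ => ?_
      rw [h2, if_pos rfl]
    · intro k _ hk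
      rw [Finset.mul_sum]
      refine Finset.sum_eq_zero fun l _ => ?_
      rw [h2, if_neg (Ne.symm hk)]
    · intro h
      exact absurd (Finset.mem_univ _) h
  rw [Finset.sum_mul, Finset.sum_congr rfl fun j _ => h4 j, Finset.sum_comm]
  refine Finset.sum_congr rfl fun l _ => ?_
  rw [Matrix.mul_apply, Finset.sum_smul]

theorem G2b_star {R : Type} [Ring R] [StarRing R] [Algebra ℂ R] [StarModule ℂ R] {N : ℕ}
    (S : Fin N → R) (c : Matrix (Fin N) (Fin N) ℂ) :
    star (G2b_phi S c) = G2b_phi S cᴴ := by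
  unfold G2b_phi
  rw [star_sum]
  simp only [star_sum]
  rw [Finset.sum_comm]
  refine Finset.sum_congr rfl fun i _ => Finset.sum_congr rfl fun j _ => ?_
  rw [star_smul, star_mul, star_star, Matrix.conjTranspose_apply]

theorem G2b_one {R : Type} [Ring R] [StarRing R] [Algebra ℂ R] {N : ℕ}
    {S : Fin N → R} (h2 : ∑ j, S j * star (S j) = 1) : G2b_phi S 1 = 1 := by
  unfold G2b_phi
  rw [← h2]
  refine Finset.sum_congr rfl fun i _ => ?_
  rw [Finset.sum_eq_single i]
  · rw [Matrix.one_apply_eq, one_smul]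
  · intro j _ hj
    rw [Matrix.one_apply_ne (Ne.symm hj), zero_smul]
  · intro h
    exact absurd (Finset.mem_univ _) h

/-- (G2b) with `S` as in G2a (hypothesis): `u = ∑_(i,j) ⟪e_i, U e_j⟫ S_i (S_j)*`. As in S1 (density of the
span of the `bv n`): `(S_i)* S_j = δ_ij`, `∑ S_j (S_j)* = 1`; and `(S_j)* e_l = δ_(jl) e_0` for `l < 2^m`. -/
theorem unitary_real {s : Fin 2 → (H0 →L[ℂ] H0)} (m : ℕ) (S : Fin (2 ^ m) → O2 s)
    (hS : ∀ (j : Fin (2 ^ m)) (n : ℕ), (S j : H0 →L[ℂ] H0) (bv n) = bv (2 ^ m * n + j))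
    (U : EuclideanSpace ℂ (Fin (2 ^ m)) ≃ₗᵢ[ℂ] EuclideanSpace ℂ (Fin (2 ^ m))) :
    ∃ u : O2 s, u ∈ unitary (O2 s) ∧
      ∀ x : EuclideanSpace ℂ (Fin (2 ^ m)), (u : H0 →L[ℂ] H0) (emb _ x) = emb _ (U x) := by
  have hadj : ∀ (j : Fin (2 ^ m)) (k : ℕ), star (S j : H0 →L[ℂ] H0) (bv k) =
      if k % 2 ^ m = j then bv (k / 2 ^ m) else 0 := fun j k => G2b_adj j.isLt (hS j) k
  have hN : 0 < 2 ^ m := by positivity
  have hr1 : ∀ i j, star (S i) * S j = if i = j then 1 else 0 := by
    intro i j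
    apply Subtype.ext
    have e : ((star (S i) * S j : O2 s) : H0 →L[ℂ] H0) =
        star (S i : H0 →L[ℂ] H0) * (S j : H0 →L[ℂ] H0) := rfl
    rw [e]
    apply G2b_ext
    intro n
    have e2 : (star (S i : H0 →L[ℂ] H0) * (S j : H0 →L[ℂ] H0)) (bv n) =
        star (S i : H0 →L[ℂ] H0) ((S j : H0 →L[ℂ] H0) (bv n)) := rfl
    rw [e2, hS, hadj, Nat.mul_add_mod, Nat.mod_eq_of_lt j.isLt, Nat.mul_add_div hN,
      Nat.div_eq_of_lt j.isLt, add_zero]
    by_cases h : i = j
    · subst h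
      rw [if_pos rfl, if_pos rfl]
      rfl
    · rw [if_neg (fun h' => h (Fin.ext h'.symm)), if_neg h]
      rfl
  have hr2 : ∑ j, S j * star (S j) = 1 := by
    apply Subtype.ext
    have e : ((∑ j, S j * star (S j) : O2 s) : H0 →L[ℂ] H0) =
        ∑ j, (S j : H0 →L[ℂ] H0) * star (S j : H0 →L[ℂ] H0) := by
      have := map_sum (O2 s).subtype (fun j => S j * star (S j)) Finset.univ
      exact this
    rw [e]
    apply G2b_ext
    intro k
    rw [ContinuousLinearMap.sum_apply]
    have hk : k % 2 ^ m < 2 ^ m := Nat.mod_lt _ hN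
    rw [Finset.sum_eq_single (⟨k % 2 ^ m, hk⟩ : Fin (2 ^ m))]
    · change (S ⟨k % 2 ^ m, hk⟩ : H0 →L[ℂ] H0) (star (S ⟨k % 2 ^ m, hk⟩ : H0 →L[ℂ] H0) (bv k)) = bv k
      rw [hadj, if_pos rfl, hS]
      exact congrArg bv (Nat.div_add_mod k (2 ^ m))
    · intro j _ hj
      change (S j : H0 →L[ℂ] H0) (star (S j : H0 →L[ℂ] H0) (bv k)) = 0
      rw [hadj, if_neg (fun h => hj (Fin.ext h.symm)), map_zero]
    · intro h
      exact absurd (Finset.mem_univ _) h
  let b := EuclideanSpace.basisFun (Fin (2 ^ m)) ℂ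
  let c : Matrix (Fin (2 ^ m)) (Fin (2 ^ m)) ℂ := Matrix.of fun i j => U (b j) i
  have hc1 : cᴴ * c = 1 := by
    ext j k
    rw [Matrix.mul_apply]
    have h1 : ∑ i, cᴴ j i * c i k = inner ℂ (U (b j)) (U (b k)) := by
      rw [PiLp.inner_apply]
      refine Finset.sum_congr rfl fun i _ => ?_
      rw [Matrix.conjTranspose_apply, RCLike.inner_apply]
      simp only [c, Matrix.of_apply]
      rw [mul_comm]
      rfl
    rw [h1, LinearIsometryEquiv.inner_map_map, orthonormal_iff_ite.1 b.orthonormal,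
      Matrix.one_apply]
  have hc2 : c * cᴴ = 1 := mul_eq_one_comm.1 hc1
  have hU : ∀ (x : EuclideanSpace ℂ (Fin (2 ^ m))) i, U x i = ∑ j, c i j * x j := by
    intro x i
    have h1 : x = ∑ j, x j • b j := by
      conv_lhs => rw [← b.sum_repr x]
      rfl
    conv_lhs => rw [h1]
    rw [map_sum]
    simp only [map_smul]
    rw [WithLp.ofLp_sum, Finset.sum_apply]
    refine Finset.sum_congr rfl fun j _ => ?_
    simp only [c, Matrix.of_apply, PiLp.smul_apply, smul_eq_mul]
    ring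
  refine ⟨G2b_phi S c, ?_, ?_⟩
  · rw [Unitary.mem_iff, G2b_star, G2b_mul hr1, G2b_mul hr1, hc1, hc2, G2b_one hr2]
    exact ⟨rfl, rfl⟩
  · intro x
    have e : ((G2b_phi S c : O2 s) : H0 →L[ℂ] H0) =
        ∑ i, ∑ j, c i j • ((S i : H0 →L[ℂ] H0) * star (S j : H0 →L[ℂ] H0)) := by
      have h1 := map_sum (O2 s).subtype (fun i => ∑ j, c i j • (S i * star (S j))) Finset.univ
      have h2 : ∀ i, (O2 s).subtype (∑ j, c i j • (S i * star (S j))) =
          ∑ j, c i j • ((S i : H0 →L[ℂ] H0) * star (S j : H0 →L[ℂ] H0)) := fun i =>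
        map_sum (O2 s).subtype (fun j => c i j • (S i * star (S j))) Finset.univ
      rw [Finset.sum_congr rfl fun i _ => h2 i] at h1
      exact h1
    have hj : ∀ j : Fin (2 ^ m), star (S j : H0 →L[ℂ] H0) (emb _ x) = x j • bv 0 := by
      intro j
      unfold emb
      rw [map_sum, Finset.sum_eq_single j]
      · rw [map_smul, hadj, Nat.mod_eq_of_lt j.isLt, if_pos rfl, Nat.div_eq_of_lt j.isLt]
      · intro k _ hk
        rw [map_smul, hadj, Nat.mod_eq_of_lt k.isLt, if_neg (fun h => hk (Fin.ext h)), smul_zero]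
      · intro h
        exact absurd (Finset.mem_univ _) h
    rw [e, ContinuousLinearMap.sum_apply]
    unfold emb at hj ⊢
    refine Finset.sum_congr rfl fun i _ => ?_
    rw [ContinuousLinearMap.sum_apply, hU, Finset.sum_smul]
    refine Finset.sum_congr rfl fun j _ => ?_
    change c i j • ((S i : H0 →L[ℂ] H0) (star (S j : H0 →L[ℂ] H0) (∑ j : Fin (2 ^ m), x j • bv (j : ℕ)))) = _
    rw [hj, map_smul, hS, mul_zero, zero_add, smul_smul]

end Vale.Agent.P083K
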