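import Vale.Agent.P083K.Defs2

open Filter Topology Matrix
open scoped ENNReal

namespace Vale.Agent.P083K

open Vale.Agent.P101K

private theorem G3_inner (i j : ℕ) : inner ℂ (bv i) (bv j) = if i = j then (1 : ℂ) else 0 := by
  unfold bv
  rw [lp.inner_single_left]
  by_cases h : i = j
  · subst h
    rw [if_pos rfl, lp.single_apply_self]
    simp
  · rw [if_neg h, lp.single_apply_ne _ _ _ h]
    simp

private theorem G3_on (N : ℕ) : Orthonormal ℂ (fun j : Fin N => bv (j : ℕ)) := by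
  rw [orthonormal_iff_ite]
  intro i j
  rw [G3_inner]
  simp only [Fin.ext_iff]

/-- (G3) inner products and truncation -/
theorem emb_inner {N : ℕ} (x y : EuclideanSpace ℂ (Fin N)) :
    inner ℂ (emb N x) (emb N y) = inner ℂ x y := by
  unfold emb
  rw [(G3_on N).inner_sum, PiLp.inner_apply]
  refine Finset.sum_congr rfl fun i _ => ?_
  rw [RCLike.inner_apply, mul_comm]

theorem emb_sub {N : ℕ} (x y : EuclideanSpace ℂ (Fin N)) : emb N (x - y) = emb N x - emb N y := by
  unfold emb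
  rw [← Finset.sum_sub_distrib]
  refine Finset.sum_congr rfl fun i _ => ?_
  rw [PiLp.sub_apply, sub_smul]

theorem emb_norm {N : ℕ} (x : EuclideanSpace ℂ (Fin N)) : ‖emb N x‖ = ‖x‖ := by
  have h := emb_inner x x
  rw [inner_self_eq_norm_sq_to_K, inner_self_eq_norm_sq_to_K] at h
  have h2 : ‖emb N x‖ ^ 2 = ‖x‖ ^ 2 := by exact_mod_cast h
  exact (pow_left_inj₀ (norm_nonneg _) (norm_nonneg _) two_ne_zero).1 h2

private theorem G3_one (w : H0) {ε : ℝ} (hε : 0 < ε) :
    ∃ N0 : ℕ, ∀ N, N0 ≤ N → ‖w - emb N (WithLp.toLp 2 (fun j : Fin N => w (j : ℕ)))‖ < ε := by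
  have h1 : HasSum (fun n : ℕ => lp.single 2 n (w n : ℂ)) w := lp.hasSum_single (by simp) w
  have h2 := h1.tendsto_sum_nat
  have h3 : ∀ N : ℕ, ∑ n ∈ Finset.range N, lp.single 2 n (w n : ℂ) =
      emb N (WithLp.toLp 2 (fun j : Fin N => w (j : ℕ))) := by
    intro N
    unfold emb
    rw [Finset.sum_range]
    refine Finset.sum_congr rfl fun i _ => ?_
    unfold bv
    rw [← lp.single_smul, smul_eq_mul, mul_one]
  obtain ⟨N0, hN0⟩ := (Metric.tendsto_atTop.1 h2) ε hε
  refine ⟨N0, fun N hN => ?_⟩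
  have h4 := hN0 N hN
  rw [h3, dist_comm, dist_eq_norm] at h4
  exact h4

/-- finitely many vectors are close to the span of `e_0, ..., e_(N-1)` for `N` large
(`lp.hasSum_single` or `lp.tendsto`...). -/
theorem trunc {k : ℕ} (v : Fin k → H0) {ε : ℝ} (hε : 0 < ε) :
    ∃ N0 : ℕ, ∀ N, N0 ≤ N → ∃ v' : Fin k → EuclideanSpace ℂ (Fin N), ∀ i, ‖v i - emb N (v' i)‖ < ε := by
  choose N0 hN0 using fun i => G3_one (v i) hε
  refine ⟨Finset.univ.sup N0, fun N hN => ⟨fun i => WithLp.toLp 2 (fun j : Fin N => v i (j : ℕ)),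
    fun i => hN0 i N ((Finset.le_sup (Finset.mem_univ i)).trans hN)⟩⟩

end Vale.Agent.P083K
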