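import Vale.Agent.P083K.Defs3
import Vale.Agent.P083K.G1
import Vale.Agent.P083K.G1a
import Vale.Agent.P083K.G1b
import Vale.Agent.P083K.G2a
import Vale.Agent.P083K.G2b
import Vale.Agent.P083K.G3

open Filter Topology Matrix
open scoped ENNReal

namespace Vale.Agent.P083K

open Vale.Agent.P101K

theorem G_gram {N : ℕ} {v w : H0} {x y : EuclideanSpace ℂ (Fin N)} {R τ : ℝ} (hR : 0 ≤ R) (hτ : 0 ≤ τ)
    (hτ1 : τ ≤ 1) (hv : ‖v‖ ≤ R) (hw : ‖w‖ ≤ R) (hx : ‖v - emb N x‖ < τ) (hy : ‖w - emb N y‖ < τ) :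
    ‖inner ℂ x y - inner ℂ v w‖ ≤ τ * (2 * R + 1) := by
  rw [← emb_inner]
  have e : inner ℂ (emb N x) (emb N y) - inner ℂ v w =
      -(inner ℂ (v - emb N x) (emb N y)) - inner ℂ v (w - emb N y) := by
    rw [inner_sub_left, inner_sub_right]
    ring
  rw [e]
  have hy' : ‖emb N y‖ ≤ R + τ := by
    have h : emb N y = w - (w - emb N y) := by abel
    rw [h]
    refine le_trans (norm_sub_le _ _) ?_
    linarith
  have h1 : ‖inner ℂ (v - emb N x) (emb N y)‖ ≤ τ * (R + τ) :=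
    le_trans (norm_inner_le_norm _ _) (mul_le_mul hx.le hy' (norm_nonneg _) hτ)
  have h2 : ‖inner ℂ v (w - emb N y)‖ ≤ R * τ :=
    le_trans (norm_inner_le_norm _ _) (mul_le_mul hv hy.le (norm_nonneg _) hR)
  refine le_trans (norm_sub_le _ _) ?_
  rw [norm_neg]
  nlinarith

theorem G_norm {s : Fin 2 → (H0 →L[ℂ] H0)} {u : O2 s} (hu : u ∈ unitary (O2 s)) (x : H0) :
    ‖(u : H0 →L[ℂ] H0) x‖ ≤ ‖x‖ := by
  have h1 : star u * u = 1 := (Unitary.mem_iff.mp hu).1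
  have h2 : star (u : H0 →L[ℂ] H0) * (u : H0 →L[ℂ] H0) = 1 := by
    have := congrArg (fun z : O2 s => (z : H0 →L[ℂ] H0)) h1
    exact this
  have h3 : ‖(u : H0 →L[ℂ] H0)‖ * ‖(u : H0 →L[ℂ] H0)‖ ≤ 1 := by
    rw [← CStarRing.norm_star_mul_self, h2]
    exact ContinuousLinearMap.norm_id_le
  have h4 : ‖(u : H0 →L[ℂ] H0)‖ ≤ 1 := by
    nlinarith [norm_nonneg (u : H0 →L[ℂ] H0)]
  refine le_trans (ContinuousLinearMap.le_opNorm _ _) ?_
  nlinarith [norm_nonneg x]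

/-- (G) truncate both families (`trunc`) into `ℂ^(2^m)`, `2^m ≥ k`, with an error so small that the Gram
matrices stay `δ`-close; `gram_near`, then `unitary_real`. -/
theorem match_unitary {s : Fin 2 → (H0 →L[ℂ] H0)} (hs : IsCuntz s) (k : ℕ) (C : ℝ) {ε : ℝ}
    (hε : 0 < ε) : ∃ δ : ℝ, 0 < δ ∧ ∀ v w : Fin k → H0, (∀ i, ‖v i‖ ≤ C) → (∀ i, ‖w i‖ ≤ C) →
      (∀ i j, ‖inner ℂ (v i) (v j) - inner ℂ (w i) (w j)‖ < δ) →
      ∃ u : O2 s, u ∈ unitary (O2 s) ∧ ∀ i, ‖(u : H0 →L[ℂ] H0) (w i) - v i‖ < ε := by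
  obtain ⟨δ0, hδ0, hG⟩ := gram_near (fun a b ha hb => pos_sq_near a b ha hb)
    (fun J V a h => polar_ext J V a h) k (show 0 < ε / 3 by positivity)
  refine ⟨δ0 / 2, by positivity, fun v w hv hw hvw => ?_⟩
  set R := |C| with hR
  have hR0 : 0 ≤ R := abs_nonneg C
  have hv' : ∀ i, ‖v i‖ ≤ R := fun i => le_trans (hv i) (le_abs_self C)
  have hw' : ∀ i, ‖w i‖ ≤ R := fun i => le_trans (hw i) (le_abs_self C)
  set τ := min (ε / 3) (min 1 (δ0 / (4 * (2 * R + 1)))) with hτ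
  have hτ0 : 0 < τ := lt_min (by positivity) (lt_min one_pos (by positivity))
  have hτε : τ ≤ ε / 3 := min_le_left _ _
  have hτ1 : τ ≤ 1 := le_trans (min_le_right _ _) (min_le_left _ _)
  have hτδ : τ * (2 * R + 1) ≤ δ0 / 4 := by
    have h1 : τ ≤ δ0 / (4 * (2 * R + 1)) := le_trans (min_le_right _ _) (min_le_right _ _)
    rw [le_div_iff₀ (by positivity)] at h1
    linarith
  obtain ⟨N1, hN1⟩ := trunc v hτ0
  obtain ⟨N2, hN2⟩ := trunc w hτ0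
  obtain ⟨m, hm⟩ : ∃ m : ℕ, max k (max N1 N2) ≤ 2 ^ m :=
    ⟨max k (max N1 N2), (Nat.lt_two_pow_self).le⟩
  obtain ⟨v', hv1⟩ := hN1 (2 ^ m) (le_trans (le_trans (le_max_left _ _) (le_max_right _ _)) hm)
  obtain ⟨w', hw1⟩ := hN2 (2 ^ m) (le_trans (le_trans (le_max_right _ _) (le_max_right _ _)) hm)
  obtain ⟨U, hU⟩ := hG (2 ^ m) (le_trans (le_max_left _ _) hm) v' w' (by
    intro i j
    have h1 := G_gram hR0 hτ0.le hτ1 (hv' i) (hv' j) (hv1 i) (hv1 j)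
    have h2 := G_gram hR0 hτ0.le hτ1 (hw' i) (hw' j) (hw1 i) (hw1 j)
    have h3 := hvw i j
    have e : inner ℂ (v' i) (v' j) - inner ℂ (w' i) (w' j) =
        (inner ℂ (v' i) (v' j) - inner ℂ (v i) (v j)) + ((inner ℂ (v i) (v j) - inner ℂ (w i) (w j)) -
          (inner ℂ (w' i) (w' j) - inner ℂ (w i) (w j))) := by ring
    rw [e]
    refine lt_of_le_of_lt (norm_add_le _ _) ?_
    have h4 := norm_sub_le (inner ℂ (v i) (v j) - inner ℂ (w i) (w j))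
      (inner ℂ (w' i) (w' j) - inner ℂ (w i) (w j))
    linarith)
  obtain ⟨S, hS⟩ := word_iso hs m
  obtain ⟨u, hu, hux⟩ := unitary_real m S hS U
  refine ⟨u, hu, fun i => ?_⟩
  have e : (u : H0 →L[ℂ] H0) (w i) - v i = (u : H0 →L[ℂ] H0) (w i - emb _ (w' i)) +
      (emb _ (U (w' i) - v' i) + -(v i - emb _ (v' i))) := by
    rw [map_sub, hux, emb_sub]
    abel
  rw [e]
  refine lt_of_le_of_lt (norm_add_le _ _) ?_
  have h1 := G_norm hu (w i - emb _ (w' i))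
  have h2 := norm_add_le (emb _ (U (w' i) - v' i)) (-(v i - emb _ (v' i)))
  rw [norm_neg, emb_norm] at h2
  have h3 := hU i
  have h4 := hv1 i
  have h5 := hw1 i
  linarith

end Vale.Agent.P083K
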