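import Vale.Agent.P083K.Defs2

open Filter Topology Matrix
open scoped ENNReal

namespace Vale.Agent.P083K

open Vale.Agent.P101K

theorem S2_mem (s : Fin 2 → (H0 →L[ℂ] H0)) (i : Fin 2) : s i ∈ O2 s :=
  StarSubalgebra.le_topologicalClosure _ (StarAlgebra.subset_adjoin ℂ _ ⟨i, rfl⟩)

theorem S2_lam_mem (s : Fin 2 → (H0 →L[ℂ] H0)) (x : H0 →L[ℂ] H0) (hx : x ∈ O2 s) :
    lam s x ∈ O2 s := by
  unfold lam
  exact add_mem (mul_mem (mul_mem (S2_mem s 0) hx) (star_mem (S2_mem s 0)))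
    (mul_mem (mul_mem (S2_mem s 1) hx) (star_mem (S2_mem s 1)))

theorem S2_lam_mul {s : Fin 2 → (H0 →L[ℂ] H0)}
    (h : star (s 0) * s 0 = 1 ∧ star (s 1) * s 1 = 1 ∧ star (s 0) * s 1 = 0 ∧ star (s 1) * s 0 = 0 ∧
      s 0 * star (s 0) + s 1 * star (s 1) = 1) (x y : H0 →L[ℂ] H0) :
    lam s (x * y) = lam s x * lam s y := by
  obtain ⟨h00, h11, h01, h10, -⟩ := h
  unfold lam
  have e (a b : Fin 2) : s a * x * star (s a) * (s b * y * star (s b)) =
      s a * x * (star (s a) * s b) * y * star (s b) := by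
    simp only [mul_assoc]
  rw [mul_add, add_mul, add_mul, e, e, e, e, h00, h11, h01, h10]
  simp only [mul_zero, zero_mul, mul_one, add_zero, zero_add, mul_assoc]

theorem S2_lam_add (s : Fin 2 → (H0 →L[ℂ] H0)) (x y : H0 →L[ℂ] H0) :
    lam s (x + y) = lam s x + lam s y := by
  unfold lam
  simp only [mul_add, add_mul]
  abel

theorem S2_lam_smul {s : Fin 2 → (H0 →L[ℂ] H0)}
    (h : star (s 0) * s 0 = 1 ∧ star (s 1) * s 1 = 1 ∧ star (s 0) * s 1 = 0 ∧ star (s 1) * s 0 = 0 ∧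
      s 0 * star (s 0) + s 1 * star (s 1) = 1) (c : ℂ) :
    lam s (algebraMap ℂ (H0 →L[ℂ] H0) c) = algebraMap ℂ (H0 →L[ℂ] H0) c := by
  obtain ⟨-, -, -, -, h5⟩ := h
  unfold lam
  rw [Algebra.algebraMap_eq_smul_one, mul_smul_comm, mul_smul_comm, smul_mul_assoc, smul_mul_assoc,
    mul_one, mul_one, ← smul_add, h5]

theorem S2_lam_star (s : Fin 2 → (H0 →L[ℂ] H0)) (x : H0 →L[ℂ] H0) :
    lam s (star x) = star (lam s x) := by
  unfold lam
  simp only [star_add, star_mul, star_star, mul_assoc]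

theorem S2_one {s : Fin 2 → (H0 →L[ℂ] H0)}
    (h : star (s 0) * s 0 = 1 ∧ star (s 1) * s 1 = 1 ∧ star (s 0) * s 1 = 0 ∧ star (s 1) * s 0 = 0 ∧
      s 0 * star (s 0) + s 1 * star (s 1) = 1) :
    ∃ Λ : O2 s →⋆ₐ[ℂ] O2 s, ∀ x : O2 s, (Λ x : H0 →L[ℂ] H0) = lam s (x : H0 →L[ℂ] H0) := by
  refine ⟨{ toFun := fun x => ⟨lam s x.1, S2_lam_mem s x.1 x.2⟩
            map_one' := ?_
            map_mul' := ?_
            map_zero' := ?_
            map_add' := ?_
            commutes' := ?_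
            map_star' := ?_ }, fun x => rfl⟩
  · apply Subtype.ext
    have := S2_lam_smul h 1
    rw [map_one] at this
    exact this
  · intro x y
    apply Subtype.ext
    exact S2_lam_mul h x.1 y.1
  · apply Subtype.ext
    have := S2_lam_smul h 0
    rw [map_zero] at this
    exact this
  · intro x y
    apply Subtype.ext
    exact S2_lam_add s x.1 y.1
  · intro c
    apply Subtype.ext
    exact S2_lam_smul h c
  · intro x
    apply Subtype.ext
    exact S2_lam_star s x.1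

/-- (S2) from the Cuntz relations (hypothesis `h`): `lam s` is multiplicative, additive, unital,
star preserving; it maps `O2 s` into `O2 s`; iterate `m` times. -/
theorem lam_hom {s : Fin 2 → (H0 →L[ℂ] H0)}
    (h : star (s 0) * s 0 = 1 ∧ star (s 1) * s 1 = 1 ∧ star (s 0) * s 1 = 0 ∧ star (s 1) * s 0 = 0 ∧
      s 0 * star (s 0) + s 1 * star (s 1) = 1) (m : ℕ) :
    ∃ Λ : O2 s →⋆ₐ[ℂ] O2 s, ∀ x : O2 s, (Λ x : H0 →L[ℂ] H0) = (lam s)^[m] (x : H0 →L[ℂ] H0) := by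
  obtain ⟨Λ, hΛ⟩ := S2_one h
  induction m with
  | zero => exact ⟨StarAlgHom.id ℂ (O2 s), fun x => rfl⟩
  | succ m ih =>
    obtain ⟨Θ, hΘ⟩ := ih
    refine ⟨Λ.comp Θ, fun x => ?_⟩
    rw [Function.iterate_succ_apply', ← hΘ x, StarAlgHom.comp_apply, hΛ]

end Vale.Agent.P083K
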