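import Vale.Agent.P083K.Defs3
import Vale.Agent.P083K.S2
import Vale.Agent.P083K.E1

open Filter Topology Matrix
open scoped ENNReal

namespace Vale.Agent.P083K

open Vale.Agent.P101K

theorem H1_hs {s : Fin 2 → (H0 →L[ℂ] H0)} {ω : Ultrafilter ℕ} {A : Type} [CStarAlgebra A]
    (φ : ℕ → A → O2 s) (h : IsHS ω φ) (E : ℕ → (O2 s →⋆ₐ[ℂ] O2 s)) :
    IsHS ω (fun n a => E n (φ n a)) := by
  have hle : ∀ n (x : O2 s), ‖E n x‖ ≤ ‖x‖ := fun n x => NonUnitalStarAlgHom.norm_apply_le (E n) x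
  obtain ⟨h1, h2, h3, h4, h5, h6⟩ := h
  refine ⟨fun a => ?_, ?_, fun a b => ?_, fun a b => ?_, fun c a => ?_, fun a => ?_⟩
  · obtain ⟨C, hC⟩ := h1 a
    exact ⟨C, fun n => (hle n _).trans (hC n)⟩
  · refine squeeze_zero (fun n => norm_nonneg _) (fun n => ?_) h2
    have e : E n (φ n 1) - 1 = E n (φ n 1 - 1) := by rw [map_sub, map_one]
    change ‖E n (φ n 1) - 1‖ ≤ ‖φ n 1 - 1‖
    rw [e]
    exact hle n _
  · refine squeeze_zero (fun n => norm_nonneg _) (fun n => ?_) (h3 a b)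
    rw [← map_add, ← map_sub]
    exact hle n _
  · refine squeeze_zero (fun n => norm_nonneg _) (fun n => ?_) (h4 a b)
    rw [← map_mul, ← map_sub]
    exact hle n _
  · refine squeeze_zero (fun n => norm_nonneg _) (fun n => ?_) (h5 c a)
    rw [← map_smul, ← map_sub]
    exact hle n _
  · refine squeeze_zero (fun n => norm_nonneg _) (fun n => ?_) (h6 a)
    rw [← map_star, ← map_sub]
    exact hle n _

theorem H1_conj (s : Fin 2 → (H0 →L[ℂ] H0)) (u : O2 s) (hu : u ∈ unitary (O2 s)) :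
    ∃ E : O2 s →⋆ₐ[ℂ] O2 s, ∀ x, E x = u * x * star u := by
  have hu1 : star u * u = 1 := (Unitary.mem_iff.1 hu).1
  have hu2 : u * star u = 1 := (Unitary.mem_iff.1 hu).2
  refine ⟨{ toFun := fun x => u * x * star u
            map_one' := by rw [mul_one, hu2]
            map_mul' := fun x y => by
              have : u * x * star u * (u * y * star u) = u * x * (star u * u) * y * star u := by
                simp only [mul_assoc]
              rw [this, hu1, mul_one]
              simp only [mul_assoc]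
            map_zero' := by rw [mul_zero, zero_mul]
            map_add' := fun x y => by rw [mul_add, add_mul]
            commutes' := fun c => by
              rw [Algebra.algebraMap_eq_smul_one, mul_smul_comm, smul_mul_assoc, mul_one, hu2]
            map_star' := fun x => by
              simp only [star_mul, star_star, mul_assoc] }, fun x => rfl⟩

/-- (H1) `x ↦ u_n Λ^(m_n)(x) u_n*` is a *-endomorphism of `O2 s` (contractive, `lam_hom`), so the
composite with `φ n` is again `IsHS`; apply `seq_hom`. -/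
theorem twist {s : Fin 2 → (H0 →L[ℂ] H0)} [Nontrivial (O2 s)] (hs : CzRel s) {ω : Ultrafilter ℕ}
    {A : Type} [CStarAlgebra A] (φ : ℕ → A → O2 s) (h : IsHS ω φ) (m : ℕ → ℕ) (u : ℕ → O2 s)
    (hu : ∀ n, u n ∈ unitary (O2 s)) :
    ∃ (π : ℕ → A → O2 s) (α : A →⋆ₐ[ℂ] Aom (O2 s) ω),
      (∀ n a, (π n a : H0 →L[ℂ] H0) = (u n : H0 →L[ℂ] H0) * (lam s)^[m n] (φ n a : H0 →L[ℂ] H0) *
        star (u n : H0 →L[ℂ] H0)) ∧
      ∀ a, ∃ y : Bdd (O2 s), (∀ n, y n = π n a) ∧ α a = omk (O2 s) ω y := by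
  choose Λ hΛ using fun n => lam_hom hs (m n)
  choose E hE using fun n => H1_conj s (u n) (hu n)
  obtain ⟨α, hα⟩ := seq_hom (fun n a => ((E n).comp (Λ n)) (φ n a))
    (H1_hs φ h (fun n => (E n).comp (Λ n)))
  refine ⟨fun n a => ((E n).comp (Λ n)) (φ n a), α, fun n a => ?_, hα⟩
  change ((E n (Λ n (φ n a)) : O2 s) : H0 →L[ℂ] H0) = _
  rw [hE, ← hΛ n (φ n a)]
  rfl

end Vale.Agent.P083K
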