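import Vale.Agent.P083K.V
import Vale.Agent.P083K.S2

open Filter Topology Matrix
open scoped ENNReal

namespace Vale.Agent.P083K

open Vale.Agent.P101K

/-- (K1p) one algebra, finite sets: `realK_state` for the letters `F ∪ {1}` and the vectors `G`
(enumerate with `Finset.equivFin`); the Gram matrix through `φ n 1 ≈ 1`, `(lam s)^[m] 1 = 1`
and contractivity of `lam`. -/
theorem rlz_one {s : Fin 2 → (H0 →L[ℂ] H0)} (hr : CzRel s) {ω : Ultrafilter ℕ}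
    {A P : Type} [CStarAlgebra A] [CStarAlgebra P] (iA : A →⋆ₐ[ℂ] P) (f : P →L[ℂ] ℂ) (hf : IsSt f)
    (φ : ℕ → A → O2 s) (hφ : IsHS ω φ) (hn : ∀ a, Tendsto (fun n => ‖φ n a‖) ω (𝓝 ‖a‖))
    (G : Finset P) (FA : Finset A) {δ : ℝ} (hδ : 0 < δ) :
    ∀ᶠ n in (ω : Filter ℕ), ∃ (m : ℕ) (ζ : P → H0),
      (∀ p ∈ G, ∀ q ∈ G, ‖inner ℂ (ζ p) (ζ q) - f (star p * q)‖ < δ) ∧
      (∀ p ∈ G, ∀ q ∈ G, ∀ a ∈ FA,
        ‖inner ℂ (ζ p) ((lam s)^[m] (φ n a : H0 →L[ℂ] H0) (ζ q)) - f (star p * iA a * q)‖ < δ) := by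
  sorry

end Vale.Agent.P083K
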