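import Vale.Agent.P083K.V
import Vale.Agent.P083K.G
import Vale.Agent.P083K.K1p

open Filter Topology Matrix
open scoped ENNReal

namespace Vale.Agent.P083K

open Vale.Agent.P101K

theorem K1_norm_le {x : H0} {c : ℂ} {M : ℝ} (h : ‖inner ℂ x x - c‖ < 1) (hM : 1 + ‖c‖ ≤ M) :
    ‖x‖ ≤ M := by
  have h1 : ‖(inner ℂ x x : ℂ)‖ = ‖x‖ ^ 2 := by
    rw [inner_self_eq_norm_sq_to_K]
    simp
  have h2 : ‖(inner ℂ x x : ℂ)‖ ≤ ‖inner ℂ x x - c‖ + ‖c‖ := by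
    have := norm_add_le (inner ℂ x x - c) c
    rwa [sub_add_cancel] at this
  have h3 := norm_nonneg c
  by_contra h4
  push Not at h4
  nlinarith

theorem K1_star_norm {u : H0 →L[ℂ] H0} (hu : u * star u = 1) (z : H0) :
    ‖(star u) z‖ = ‖z‖ := by
  have h1 : (inner ℂ ((star u) z) ((star u) z) : ℂ) = inner ℂ z z := by
    rw [ContinuousLinearMap.star_eq_adjoint, ContinuousLinearMap.adjoint_inner_left,
      ← ContinuousLinearMap.star_eq_adjoint]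
    have h2 := congrArg (fun t : H0 →L[ℂ] H0 => t z) hu
    simp only [ContinuousLinearMap.mul_apply, ContinuousLinearMap.one_apply] at h2
    rw [h2]
  rw [inner_self_eq_norm_sq_to_K, inner_self_eq_norm_sq_to_K] at h1
  have h3 : ‖(star u) z‖ ^ 2 = ‖z‖ ^ 2 := by exact_mod_cast h1
  exact (sq_eq_sq₀ (norm_nonneg _) (norm_nonneg _)).1 h3

theorem K1_transfer {u Y : H0 →L[ℂ] H0} (hu : star u * u = 1) (hu' : u * star u = 1)
    {x y x' y' : H0} {M K ε : ℝ} (hM : 0 ≤ M) (hK : 0 ≤ K) (hε : 0 ≤ ε) (hy : ‖y‖ ≤ M)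
    (hx' : ‖x'‖ ≤ M) (h1 : ‖u x' - x‖ < ε) (h2 : ‖u y' - y‖ < ε) (hY : ‖Y‖ ≤ K) :
    ‖inner ℂ x ((u * Y * star u) y) - inner ℂ x' (Y y')‖ ≤ 2 * ε * M * K := by
  have e1 : (inner ℂ x ((u * Y * star u) y) : ℂ) = inner ℂ ((star u) x) (Y ((star u) y)) := by
    rw [ContinuousLinearMap.star_eq_adjoint, ContinuousLinearMap.adjoint_inner_left]
    rfl
  have key : ∀ a b : H0, ‖u a - b‖ < ε → ‖(star u) b - a‖ < ε := by
    intro a b h
    have h3 : (star u) b - a = (star u) (b - u a) := by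
      rw [map_sub]
      have h4 := congrArg (fun t : H0 →L[ℂ] H0 => t a) hu
      simp only [ContinuousLinearMap.mul_apply, ContinuousLinearMap.one_apply] at h4
      rw [h4]
    rw [h3, K1_star_norm hu', ← norm_neg, neg_sub]
    exact h
  have e2 : (inner ℂ ((star u) x) (Y ((star u) y)) : ℂ) - inner ℂ x' (Y y') =
      inner ℂ ((star u) x - x') (Y ((star u) y)) + inner ℂ x' (Y ((star u) y - y')) := by
    rw [map_sub, inner_sub_left, inner_sub_right]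
    ring
  rw [e1, e2]
  have b1 : ‖(inner ℂ ((star u) x - x') (Y ((star u) y)) : ℂ)‖ ≤ ε * (K * M) := by
    refine (norm_inner_le_norm _ _).trans ?_
    refine mul_le_mul (key _ _ h1).le ?_ (norm_nonneg _) hε
    refine (Y.le_opNorm _).trans ?_
    rw [K1_star_norm hu']
    exact mul_le_mul hY hy (norm_nonneg _) hK
  have b2 : ‖(inner ℂ x' (Y ((star u) y - y')) : ℂ)‖ ≤ M * (K * ε) := by
    refine (norm_inner_le_norm _ _).trans ?_
    refine mul_le_mul hx' ?_ (norm_nonneg _) hM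
    refine (Y.le_opNorm _).trans ?_
    exact mul_le_mul hY (key _ _ h2).le (norm_nonneg _) hK
  refine (norm_add_le _ _).trans ((add_le_add b1 b2).trans (le_of_eq ?_))
  ring

theorem K1_lam_norm {s : Fin 2 → (H0 →L[ℂ] H0)} (hr : CzRel s) (m : ℕ) (x : O2 s) :
    ‖(lam s)^[m] (x : H0 →L[ℂ] H0)‖ ≤ ‖x‖ := by
  obtain ⟨Λ, hΛ⟩ := lam_hom hr m
  rw [← hΛ x]
  exact NonUnitalStarAlgHom.norm_apply_le Λ x

/-- (K1) `realK_state` for `A` (letters `FA ∪ {1}`, vectors `G`) gives `mA, ζ`; for `B` gives `mB, ζ'`; the Gram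
matrices of `ζ`, `ζ'` are both close to `f(p* q)` (`φ n 1 ≈ 1`, `(lam s)^[m] 1 = 1`, contractive); `match_unitary`
gives `u` with `u ζ' ≈ ζ`. -/
theorem exists_rlz {s : Fin 2 → (H0 →L[ℂ] H0)} (hs : IsCuntz s) (hr : CzRel s) {ω : Ultrafilter ℕ}
    {A B P : Type} [CStarAlgebra A] [CStarAlgebra B] [CStarAlgebra P] (iA : A →⋆ₐ[ℂ] P)
    (iB : B →⋆ₐ[ℂ] P) (f : P →L[ℂ] ℂ) (hf : IsSt f)
    (φ : ℕ → A → O2 s) (hφ : IsHS ω φ) (hn : ∀ a, Tendsto (fun n => ‖φ n a‖) ω (𝓝 ‖a‖))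
    (ψ : ℕ → B → O2 s) (hψ : IsHS ω ψ) (hn' : ∀ b, Tendsto (fun n => ‖ψ n b‖) ω (𝓝 ‖b‖))
    (G : Finset P) (FA : Finset A) (FB : Finset B) {δ : ℝ} (hδ : 0 < δ) :
    ∀ᶠ n in (ω : Filter ℕ), ∃ (mA mB : ℕ) (u : O2 s) (ζ : P → H0), u ∈ unitary (O2 s) ∧
      Rlz iA iB f G FA FB δ (fun a => (lam s)^[mA] (φ n a : H0 →L[ℂ] H0))
        (fun b => (u : H0 →L[ℂ] H0) * (lam s)^[mB] (ψ n b : H0 →L[ℂ] H0) *
          star (u : H0 →L[ℂ] H0)) ζ := by
  obtain ⟨Cb, hCb⟩ := Classical.axiomOfChoice hψ.1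
  set M : ℝ := 1 + ∑ p ∈ G, ‖f (star p * p)‖ with hMdef
  set K : ℝ := 1 + ∑ b ∈ FB, |Cb b| with hKdef
  have hM1 : 1 ≤ M := by
    have : 0 ≤ ∑ p ∈ G, ‖f (star p * p)‖ := Finset.sum_nonneg fun p _ => norm_nonneg _
    linarith
  have hK1 : 1 ≤ K := by
    have : 0 ≤ ∑ b ∈ FB, |Cb b| := Finset.sum_nonneg fun p _ => abs_nonneg _
    linarith
  have hMK : 0 < 4 * M * K := by positivity
  set ε : ℝ := δ / (4 * M * K) with hεdef
  have hε : 0 < ε := div_pos hδ hMK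
  have hεMK : 2 * ε * M * K = δ / 2 := by
    rw [hεdef]
    field_simp
    ring
  obtain ⟨δ₁, hδ₁, hmatch⟩ := match_unitary hs G.card M hε
  set δ₀ : ℝ := min (min (δ / 2) (δ₁ / 2)) 1 with hδ₀def
  have hδ₀ : 0 < δ₀ := by
    rw [hδ₀def]
    exact lt_min (lt_min (by linarith) (by linarith)) one_pos
  have hδ₀a : δ₀ ≤ δ / 2 := (min_le_left _ _).trans (min_le_left _ _)
  have hδ₀b : δ₀ ≤ δ₁ / 2 := (min_le_left _ _).trans (min_le_right _ _)
  have hδ₀c : δ₀ ≤ 1 := min_le_right _ _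
  filter_upwards [rlz_one hr iA f hf φ hφ hn G FA hδ₀, rlz_one hr iB f hf ψ hψ hn' G FB hδ₀]
    with n hA hB
  obtain ⟨mA, ζ, hA1, hA2⟩ := hA
  obtain ⟨mB, ζ', hB1, hB2⟩ := hB
  have hMp : ∀ p ∈ G, 1 + ‖f (star p * p)‖ ≤ M := by
    intro p hp
    have := Finset.single_le_sum (f := fun p => ‖f (star p * p)‖) (fun q _ => norm_nonneg _) hp
    linarith
  have hζ : ∀ p ∈ G, ‖ζ p‖ ≤ M := fun p hp =>
    K1_norm_le ((hA1 p hp p hp).trans_le hδ₀c) (hMp p hp)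
  have hζ' : ∀ p ∈ G, ‖ζ' p‖ ≤ M := fun p hp =>
    K1_norm_le ((hB1 p hp p hp).trans_le hδ₀c) (hMp p hp)
  have hKb : ∀ b ∈ FB, ‖(lam s)^[mB] (ψ n b : H0 →L[ℂ] H0)‖ ≤ K := by
    intro b hb
    have h1 := (K1_lam_norm hr mB (ψ n b)).trans (hCb b n)
    have h2 := Finset.single_le_sum (f := fun b => |Cb b|) (fun q _ => abs_nonneg _) hb
    have h3 := le_abs_self (Cb b)
    linarith
  obtain ⟨u, hu, hclose⟩ := hmatch (fun i => ζ (G.equivFin.symm i : P))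
    (fun i => ζ' (G.equivFin.symm i : P)) (fun i => hζ _ (G.equivFin.symm i).2)
    (fun i => hζ' _ (G.equivFin.symm i).2) (fun i j => by
      have h1 := hA1 _ (G.equivFin.symm i).2 _ (G.equivFin.symm j).2
      have h2 := hB1 _ (G.equivFin.symm i).2 _ (G.equivFin.symm j).2
      have h3 := norm_sub_le_norm_sub_add_norm_sub
        (inner ℂ (ζ (G.equivFin.symm i : P)) (ζ (G.equivFin.symm j : P)))
        (f (star (G.equivFin.symm i : P) * (G.equivFin.symm j : P)))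
        (inner ℂ (ζ' (G.equivFin.symm i : P)) (ζ' (G.equivFin.symm j : P)))
      rw [norm_sub_rev (f _)] at h3
      linarith)
  have hcl : ∀ p ∈ G, ‖(u : H0 →L[ℂ] H0) (ζ' p) - ζ p‖ < ε := by
    intro p hp
    have := hclose (G.equivFin ⟨p, hp⟩)
    simpa using this
  have hu1 : star (u : H0 →L[ℂ] H0) * (u : H0 →L[ℂ] H0) = 1 := by
    have := congrArg (fun t : O2 s => (t : H0 →L[ℂ] H0)) (Unitary.mem_iff.1 hu).1
    exact this
  have hu2 : (u : H0 →L[ℂ] H0) * star (u : H0 →L[ℂ] H0) = 1 := by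
    have := congrArg (fun t : O2 s => (t : H0 →L[ℂ] H0)) (Unitary.mem_iff.1 hu).2
    exact this
  refine ⟨mA, mB, u, ζ, hu, fun p hp q hq => ?_, fun p hp q hq a ha => ?_,
    fun p hp q hq b hb => ?_⟩
  · exact (hA1 p hp q hq).trans_le (by linarith)
  · exact (hA2 p hp q hq a ha).trans_le (by linarith)
  · have h1 := K1_transfer hu1 hu2 (by linarith : (0:ℝ) ≤ M) (by linarith : (0:ℝ) ≤ K) hε.le
      (hζ q hq) (hζ' p hp) (hcl p hp) (hcl q hq) (hKb b hb)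
    have h2 := hB2 p hp q hq b hb
    have h3 := norm_sub_le_norm_sub_add_norm_sub
      (inner ℂ (ζ p) (((u : H0 →L[ℂ] H0) * (lam s)^[mB] (ψ n b : H0 →L[ℂ] H0) *
          star (u : H0 →L[ℂ] H0)) (ζ q)))
      (inner ℂ (ζ' p) ((lam s)^[mB] (ψ n b : H0 →L[ℂ] H0) (ζ' q)))
      (f (star p * iB b * q))
    refine lt_of_le_of_lt h3 ?_
    rw [hεMK] at h1
    linarith

end Vale.Agent.P083K
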