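import Vale.Agent.P083K.Defs3

open Filter Topology Matrix
open scoped ENNReal

namespace Vale.Agent.P083K.KLAPf

open Vale.Agent.P101K

theorem est (T S : H0 →L[ℂ] H0) (z z' : H0) (t : ℂ) (δ e : ℝ)
    (h1 : ‖inner ℂ z (S z) - t‖ < δ) (h2 : ‖inner ℂ z' (T z) - t‖ < δ)
    (h3 : ‖inner ℂ z' z' - t‖ < δ) (h4 : ‖S - star T * T‖ * ‖z‖ ^ 2 ≤ e) :
    ‖T z - z'‖ ^ 2 ≤ 4 * δ + e := by
  have a1 := (abs_le.1 ((Complex.abs_re_le_norm _).trans h1.le))
  have a2 := (abs_le.1 ((Complex.abs_re_le_norm _).trans h2.le))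
  have a3 := (abs_le.1 ((Complex.abs_re_le_norm _).trans h3.le))
  rw [Complex.sub_re] at a1 a2 a3
  have e1 : ‖T z - z'‖ ^ 2 = ‖T z‖ ^ 2 - 2 * (inner ℂ z' (T z)).re + ‖z'‖ ^ 2 := by
    have := @norm_sub_sq ℂ H0 _ _ _ (T z) z'
    rw [this, inner_re_symm]
    rfl
  have e2 : ‖T z‖ ^ 2 = (inner ℂ z ((star T * T) z)).re := by
    have h : inner ℂ z ((star T * T) z) = inner ℂ (T z) (T z) := by
      rw [ContinuousLinearMap.star_eq_adjoint, ContinuousLinearMap.mul_apply,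
        ContinuousLinearMap.adjoint_inner_right]
    rw [h]
    have := @inner_self_eq_norm_sq ℂ H0 _ _ _ (T z)
    rw [← this]
    rfl
  have e3 : ‖z'‖ ^ 2 = (inner ℂ z' z').re := by
    have := @inner_self_eq_norm_sq ℂ H0 _ _ _ z'
    rw [← this]
    rfl
  have e4 : (inner ℂ z ((star T * T) z)).re =
      (inner ℂ z (S z)).re - (inner ℂ z ((S - star T * T) z)).re := by
    rw [← Complex.sub_re, ← inner_sub_right]
    congr 2
    simp
  have e5 : -(inner ℂ z ((S - star T * T) z)).re ≤ e := by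
    have b1 := (abs_le.1 (Complex.abs_re_le_norm (inner ℂ z ((S - star T * T) z)))).1
    have b2 : ‖inner ℂ z ((S - star T * T) z)‖ ≤ ‖S - star T * T‖ * ‖z‖ ^ 2 := by
      refine (norm_inner_le_norm _ _).trans ?_
      have := (S - star T * T).le_opNorm z
      calc ‖z‖ * ‖(S - star T * T) z‖ ≤ ‖z‖ * (‖S - star T * T‖ * ‖z‖) :=
            mul_le_mul_of_nonneg_left this (norm_nonneg _)
        _ = _ := by ring
    linarith
  rw [e1, e2, e3, e4]
  linarith [a1.2, a2.1, a3.2]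

variable {s : Fin 2 → (H0 →L[ℂ] H0)} {ω : Ultrafilter ℕ} [Nontrivial (O2 s)]
    {A B P : Type} [CStarAlgebra A] [CStarAlgebra B] [CStarAlgebra P]
    {iA : A →⋆ₐ[ℂ] P} {iB : B →⋆ₐ[ℂ] P} {f : P →L[ℂ] ℂ}

theorem null_of_eq {y z : Bdd (O2 s)} (h : omk (O2 s) ω y = omk (O2 s) ω z) :
    Tendsto (fun n => ‖(y n : H0 →L[ℂ] H0) - (z n : H0 →L[ℂ] H0)‖) ω (𝓝 0) := by
  have h1 := omk_norm (O2 s) ω (y - z)
  have h2 : omk (O2 s) ω (y - z) = 0 := by
    rw [map_sub, h, sub_self]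
  rw [h2, norm_zero] at h1
  exact h1

theorem wp_left (a : A) : Wp s ω iA iB f (iA a) := by
  classical
  intro p ε hε
  have hδ0 : 0 < min 1 (ε ^ 2 / 64) := lt_min one_pos (by positivity)
  refine ⟨{p, iA a * p}, {a, star a * a}, ∅, min 1 (ε ^ 2 / 64), hδ0, ?_⟩
  intro πA πB ζ γ hA hB hR y hy
  obtain ⟨ya, hya, hya'⟩ := hA a
  obtain ⟨yb, hyb, hyb'⟩ := hA (star a * a)
  set M : ℝ := ‖f (star p * p)‖ + 1 with hM
  have hM1 : 1 ≤ M := by
    have := norm_nonneg (f (star p * p))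
    linarith
  have h1 : Tendsto (fun n => ‖(y n : H0 →L[ℂ] H0) - (ya n : H0 →L[ℂ] H0)‖ * M) ω (𝓝 0) := by
    have := (null_of_eq (hy.trans hya')).mul_const M
    rwa [zero_mul] at this
  have h2 : Tendsto (fun n => ‖(yb n : H0 →L[ℂ] H0) - ((star ya * ya) n : O2 s)‖ * M) ω
      (𝓝 0) := by
    have e : omk (O2 s) ω yb = omk (O2 s) ω (star ya * ya) := by
      rw [← hyb', map_mul (omk (O2 s) ω), map_star (omk (O2 s) ω), ← hya', map_mul iA, map_star iA,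
        map_mul γ, map_star γ]
    have := (null_of_eq e).mul_const M
    rwa [zero_mul] at this
  have hε2 : 0 < ε ^ 2 / 16 := by positivity
  filter_upwards [hR, h1.eventually (gt_mem_nhds (half_pos hε)),
    h2.eventually (gt_mem_nhds hε2)] with n hn hn1 hn2
  obtain ⟨r1, r2, -⟩ := hn
  have mp : p ∈ ({p, iA a * p} : Finset P) := by simp
  have mq : iA a * p ∈ ({p, iA a * p} : Finset P) := by simp
  have ma : a ∈ ({a, star a * a} : Finset A) := by simp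
  have mb : star a * a ∈ ({a, star a * a} : Finset A) := by simp
  have c0 := r1 p mp p mp
  have c3 := r1 _ mq _ mq
  have c2 := r2 _ mq p mp a ma
  have c1 := r2 p mp p mp _ mb
  set t : ℂ := f (star p * (star (iA a) * iA a) * p) with ht
  have t1 : f (star p * iA (star a * a) * p) = t := by
    rw [ht, map_mul iA, map_star iA]
  have t2 : f (star (iA a * p) * iA a * p) = t := by
    rw [ht, star_mul]
    congr 1
    simp only [mul_assoc]
  have t3 : f (star (iA a * p) * (iA a * p)) = t := by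
    rw [ht, star_mul]
    congr 1
    simp only [mul_assoc]
  rw [t1] at c1
  rw [t2] at c2
  rw [t3] at c3
  have hz2 : ‖ζ n p‖ ^ 2 ≤ M := by
    have e3 : ‖ζ n p‖ ^ 2 = (inner ℂ (ζ n p) (ζ n p)).re := by
      have := @inner_self_eq_norm_sq ℂ H0 _ _ _ (ζ n p)
      rw [← this]
      rfl
    have e4 := (abs_le.1 (Complex.abs_re_le_norm (inner ℂ (ζ n p) (ζ n p)))).2
    have e5 : ‖inner ℂ (ζ n p) (ζ n p)‖ ≤ ‖inner ℂ (ζ n p) (ζ n p) - f (star p * p)‖ +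
        ‖f (star p * p)‖ := by
      have := norm_add_le (inner ℂ (ζ n p) (ζ n p) - f (star p * p)) (f (star p * p))
      rwa [sub_add_cancel] at this
    have e6 : min 1 (ε ^ 2 / 64) ≤ 1 := min_le_left _ _
    rw [e3]
    linarith [c0.le]
  have hz : ‖ζ n p‖ ≤ M := by
    have := norm_nonneg (ζ n p)
    nlinarith
  have hS : ‖(πA n (star a * a) : H0 →L[ℂ] H0) -
      star (πA n a : H0 →L[ℂ] H0) * (πA n a : H0 →L[ℂ] H0)‖ * ‖ζ n p‖ ^ 2 ≤ ε ^ 2 / 16 := by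
    have e1 : ((star ya * ya) n : O2 s) = star (πA n a) * πA n a := by
      rw [← hya n]
      rfl
    rw [e1, hyb n] at hn2
    refine (mul_le_mul_of_nonneg_left hz2 (norm_nonneg _)).trans hn2.le
  have hest := est _ _ _ _ t _ _ c1 c2 c3 hS
  have hδ2 : min 1 (ε ^ 2 / 64) ≤ ε ^ 2 / 64 := min_le_right _ _
  have h5 : ‖(πA n a : H0 →L[ℂ] H0) (ζ n p) - ζ n (iA a * p)‖ < ε / 2 := by
    have h6 : ‖(πA n a : H0 →L[ℂ] H0) (ζ n p) - ζ n (iA a * p)‖ ^ 2 < (ε / 2) ^ 2 := by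
      nlinarith
    exact lt_of_pow_lt_pow_left₀ 2 (by positivity) h6
  have h7 : ‖((y n : O2 s) : H0 →L[ℂ] H0) (ζ n p) - (πA n a : H0 →L[ℂ] H0) (ζ n p)‖ < ε / 2 := by
    rw [← _root_.sub_apply, ← hya n]
    refine (ContinuousLinearMap.le_opNorm _ _).trans_lt ?_
    exact (mul_le_mul_of_nonneg_left hz (norm_nonneg _)).trans_lt hn1
  calc ‖((y n : O2 s) : H0 →L[ℂ] H0) (ζ n p) - ζ n (iA a * p)‖
      ≤ ‖((y n : O2 s) : H0 →L[ℂ] H0) (ζ n p) - (πA n a : H0 →L[ℂ] H0) (ζ n p)‖ +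
        ‖(πA n a : H0 →L[ℂ] H0) (ζ n p) - ζ n (iA a * p)‖ := norm_sub_le_norm_sub_add_norm_sub _ _ _
    _ < ε := by linarith

end Vale.Agent.P083K.KLAPf
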