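import Vale.Agent.P083K.Defs3

open Filter Topology Matrix
open scoped ENNReal

namespace Vale.Agent.P083K

open Vale.Agent.P101K

variable {s : Fin 2 → (H0 →L[ℂ] H0)} {ω : Ultrafilter ℕ} [Nontrivial (O2 s)]
    {A B P : Type} [CStarAlgebra A] [CStarAlgebra B] [CStarAlgebra P]
    {iA : A →⋆ₐ[ℂ] P} {iB : B →⋆ₐ[ℂ] P} {f : P →L[ℂ] ℂ}

/-- (KLB) `G = {p, iB b * p}`, `FB = {b, star b * b}`: `‖π(b) ζ(p) - ζ(b p)‖² = ⟪ζ p, π(b)* π(b) ζ p⟫
- 2 re ⟪ζ(b p), π(b) ζ p⟫ + ‖ζ(b p)‖²` and `π(b)* π(b) - π(b* b) → 0` in norm along `ω` (both lift `γ(iB(b* b))`);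
the three terms are close to `f(p* b* b p)`. Any two lifts of `γ x` differ by a null sequence. -/
theorem wp_right (hf : IsSt f) (b : B) : Wp s ω iA iB f (iB b) := by
  sorry

end Vale.Agent.P083K
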