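import Vale.Agent.P083K.Defs3

open Filter Topology Matrix
open scoped ENNReal

namespace Vale.Agent.P083K

open Vale.Agent.P101K

variable {s : Fin 2 → (H0 →L[ℂ] H0)} {ω : Ultrafilter ℕ} [Nontrivial (O2 s)]
    {A B P : Type} [CStarAlgebra A] [CStarAlgebra B] [CStarAlgebra P]
    {iA : A →⋆ₐ[ℂ] P} {iB : B →⋆ₐ[ℂ] P} {f : P →L[ℂ] ℂ}

private theorem KM_mono {G G' : Finset P} {FA FA' : Finset A} {FB FB' : Finset B} {δ δ' : ℝ}
    {πA : A → (H0 →L[ℂ] H0)} {πB : B → (H0 →L[ℂ] H0)} {ζ : P → H0} (hG : G ⊆ G') (hA : FA ⊆ FA')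
    (hB : FB ⊆ FB') (hδ : δ' ≤ δ) (h : Rlz iA iB f G' FA' FB' δ' πA πB ζ) :
    Rlz iA iB f G FA FB δ πA πB ζ :=
  ⟨fun p hp q hq => (h.1 p (hG hp) q (hG hq)).trans_le hδ,
    fun p hp q hq a ha => (h.2.1 p (hG hp) q (hG hq) a (hA ha)).trans_le hδ,
    fun p hp q hq b hb => (h.2.2 p (hG hp) q (hG hq) b (hB hb)).trans_le hδ⟩

private theorem KM_bound {v : H0} {c : ℂ} (h : ‖inner ℂ v v - c‖ < 1) : ‖v‖ ≤ ‖c‖ + 2 := by
  have h1 : ‖(inner ℂ v v : ℂ)‖ ≤ ‖c‖ + 1 := by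
    have h2 := norm_sub_norm_le (inner ℂ v v : ℂ) c
    linarith
  have h3 : ‖(inner ℂ v v : ℂ)‖ = ‖v‖ ^ 2 := by
    rw [inner_self_eq_norm_sq_to_K]
    simp
  rw [h3] at h1
  have h4 := norm_nonneg v
  nlinarith [norm_nonneg c]

/-- (KM) `hx'` at `p` with `ε / (2 (‖x‖ + 2))`, `hx` at `x' * p` with `ε / 2`; lifts `y1` of `γ x`, `y2` of `γ x'`;
`‖y1 n‖ ≤ ‖x‖ + 1` for `ω`-many `n`; `y - y1 y2` is null; `‖ζ n p‖` is bounded (`p ∈ G`). -/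
theorem wp_mul (hf : IsSt f) {x x' : P} (hx : Wp s ω iA iB f x) (hx' : Wp s ω iA iB f x') :
    Wp s ω iA iB f (x * x') := by
  classical
  intro p ε hε
  have hx0 := norm_nonneg x
  have he1 : 0 < ε / (4 * (‖x‖ + 2)) := by positivity
  obtain ⟨G1, FA1, FB1, δ1, hδ1, H1⟩ := hx' p (ε / (4 * (‖x‖ + 2))) he1
  obtain ⟨G2, FA2, FB2, δ2, hδ2, H2⟩ := hx (x' * p) (ε / 4) (by positivity)
  refine ⟨insert p (G1 ∪ G2), FA1 ∪ FA2, FB1 ∪ FB2, min (min δ1 δ2) 1, by positivity, ?_⟩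
  intro πA πB ζ γ hA hB hR y hy
  obtain ⟨y1, hy1⟩ := omk_surjective (O2 s) ω (γ x)
  obtain ⟨y2, hy2⟩ := omk_surjective (O2 s) ω (γ x')
  have E1 := H1 πA πB ζ γ hA hB (hR.mono fun n hn => KM_mono
    (Finset.subset_union_left.trans (Finset.subset_insert _ _)) Finset.subset_union_left
    Finset.subset_union_left ((min_le_left _ _).trans (min_le_left _ _)) hn) y2 hy2
  have E2 := H2 πA πB ζ γ hA hB (hR.mono fun n hn => KM_mono
    (Finset.subset_union_right.trans (Finset.subset_insert _ _)) Finset.subset_union_right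
    Finset.subset_union_right ((min_le_left _ _).trans (min_le_right _ _)) hn) y1 hy1
  have E3 : ∀ᶠ n in (ω : Filter ℕ), ‖y1 n‖ < ‖x‖ + 1 := by
    have h1 := omk_norm (O2 s) ω y1
    rw [hy1] at h1
    refine h1.eventually (gt_mem_nhds ?_)
    have h2 : ‖γ x‖ ≤ ‖x‖ := NonUnitalStarAlgHom.norm_apply_le γ x
    linarith
  obtain ⟨R, hRdef⟩ : ∃ R : ℝ, R = ‖f (star p * p)‖ + 2 := ⟨_, rfl⟩
  have hRpos : 0 < R := by
    rw [hRdef]
    positivity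
  have E4 : ∀ᶠ n in (ω : Filter ℕ), ‖y n - y1 n * y2 n‖ < ε / (4 * R) := by
    have h1 := omk_norm (O2 s) ω (y - y1 * y2)
    rw [map_sub, map_mul, hy, hy1, hy2, ← map_mul, sub_self, norm_zero] at h1
    exact h1.eventually (gt_mem_nhds (by positivity))
  filter_upwards [E1, E2, E3, E4, hR] with n h1 h2 h3 h4 h5
  have h6 : ‖ζ n p‖ ≤ R := by
    rw [hRdef]
    exact KM_bound ((h5.1 p (Finset.mem_insert_self _ _) p
      (Finset.mem_insert_self _ _)).trans_le (min_le_right _ _))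
  have e : ((y n : O2 s) : H0 →L[ℂ] H0) (ζ n p) - ζ n (x * x' * p) =
      ((y n - y1 n * y2 n : O2 s) : H0 →L[ℂ] H0) (ζ n p) +
      ((y1 n : O2 s) : H0 →L[ℂ] H0) (((y2 n : O2 s) : H0 →L[ℂ] H0) (ζ n p) - ζ n (x' * p)) +
      (((y1 n : O2 s) : H0 →L[ℂ] H0) (ζ n (x' * p)) - ζ n (x * (x' * p))) := by
    have e1 : ((y n - y1 n * y2 n : O2 s) : H0 →L[ℂ] H0) (ζ n p) =
        ((y n : O2 s) : H0 →L[ℂ] H0) (ζ n p) -
        ((y1 n : O2 s) : H0 →L[ℂ] H0) (((y2 n : O2 s) : H0 →L[ℂ] H0) (ζ n p)) := rfl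
    rw [e1, map_sub, mul_assoc]
    abel
  rw [e]
  have n1 : ‖((y n - y1 n * y2 n : O2 s) : H0 →L[ℂ] H0) (ζ n p)‖ ≤ ε / (4 * R) * R := by
    refine (ContinuousLinearMap.le_opNorm _ _).trans ?_
    exact mul_le_mul h4.le h6 (norm_nonneg _) (by positivity)
  have n2 : ‖((y1 n : O2 s) : H0 →L[ℂ] H0)
      (((y2 n : O2 s) : H0 →L[ℂ] H0) (ζ n p) - ζ n (x' * p))‖ ≤
      (‖x‖ + 1) * (ε / (4 * (‖x‖ + 2))) := by
    refine (ContinuousLinearMap.le_opNorm _ _).trans ?_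
    exact mul_le_mul h3.le h1.le (norm_nonneg _) (by positivity)
  have n3 : ε / (4 * R) * R = ε / 4 := by field_simp
  have n4 : (‖x‖ + 1) * (ε / (4 * (‖x‖ + 2))) ≤ ε / 4 := by
    have h7 : (‖x‖ + 2) * (ε / (4 * (‖x‖ + 2))) = ε / 4 := by field_simp
    rw [← h7]
    exact mul_le_mul_of_nonneg_right (by linarith) he1.le
  refine (norm_add₃_le).trans_lt ?_
  linarith

end Vale.Agent.P083K
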