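import Vale.Agent.P083K.Defs3

open Filter Topology Matrix
open scoped ENNReal

namespace Vale.Agent.P083K

open Vale.Agent.P101K

theorem KS_gram {P : Type} [CStarAlgebra P] (f : P →L[ℂ] ℂ) (ζ : P → H0) {δ : ℝ} {k : ℕ}
    (c : Fin k → ℂ) (u : Fin k → P) (hu : ∑ i, c i • u i = 0)
    (hG : ∀ i j, ‖inner ℂ (ζ (u i)) (ζ (u j)) - f (star (u i) * u j)‖ ≤ δ) :
    ‖∑ i, c i • ζ (u i)‖ ^ 2 ≤ (∑ i, ‖c i‖) ^ 2 * δ := by
  have h1 : inner ℂ (∑ i, c i • ζ (u i)) (∑ i, c i • ζ (u i)) =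
      ∑ i, ∑ j, star (c i) * c j * inner ℂ (ζ (u i)) (ζ (u j)) := by
    rw [sum_inner]
    refine Finset.sum_congr rfl fun i _ => ?_
    rw [inner_sum]
    refine Finset.sum_congr rfl fun j _ => ?_
    rw [inner_smul_left, inner_smul_right]
    have : (starRingEnd ℂ) (c i) = star (c i) := rfl
    rw [this]
    ring
  have h2 : (0 : ℂ) = ∑ i, ∑ j, star (c i) * c j * f (star (u i) * u j) := by
    have h3 : f (star (∑ i, c i • u i) * ∑ i, c i • u i) = 0 := by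
      rw [hu, mul_zero, map_zero]
    rw [← h3, star_sum, Finset.sum_mul, map_sum]
    refine Finset.sum_congr rfl fun i _ => ?_
    rw [Finset.mul_sum, map_sum]
    refine Finset.sum_congr rfl fun j _ => ?_
    rw [star_smul, smul_mul_smul_comm, map_smul, smul_eq_mul]
  have h4 : inner ℂ (∑ i, c i • ζ (u i)) (∑ i, c i • ζ (u i)) =
      ∑ i, ∑ j, star (c i) * c j * (inner ℂ (ζ (u i)) (ζ (u j)) - f (star (u i) * u j)) := by
    rw [h1]
    have h5 : ∑ i, ∑ j, star (c i) * c j * (inner ℂ (ζ (u i)) (ζ (u j)) - f (star (u i) * u j)) =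
        (∑ i, ∑ j, star (c i) * c j * inner ℂ (ζ (u i)) (ζ (u j))) -
        ∑ i, ∑ j, star (c i) * c j * f (star (u i) * u j) := by
      rw [← Finset.sum_sub_distrib]
      refine Finset.sum_congr rfl fun i _ => ?_
      rw [← Finset.sum_sub_distrib]
      refine Finset.sum_congr rfl fun j _ => ?_
      ring
    rw [h5, ← h2, sub_zero]
  have h6 : ‖∑ i, c i • ζ (u i)‖ ^ 2 =
      ‖inner ℂ (∑ i, c i • ζ (u i)) (∑ i, c i • ζ (u i))‖ := by
    rw [inner_self_eq_norm_sq_to_K, norm_pow]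
    simp
  rw [h6, h4]
  refine (norm_sum_le _ _).trans ?_
  calc ∑ i, ‖∑ j, star (c i) * c j * (inner ℂ (ζ (u i)) (ζ (u j)) - f (star (u i) * u j))‖
      ≤ ∑ i, ∑ j, ‖c i‖ * ‖c j‖ * δ := by
        refine Finset.sum_le_sum fun i _ => ?_
        refine (norm_sum_le _ _).trans ?_
        refine Finset.sum_le_sum fun j _ => ?_
        rw [norm_mul, norm_mul, norm_star]
        exact mul_le_mul_of_nonneg_left (hG i j) (by positivity)
    _ = (∑ i, ‖c i‖) ^ 2 * δ := by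
        rw [sq, Finset.sum_mul_sum, Finset.sum_mul]
        refine Finset.sum_congr rfl fun i _ => ?_
        rw [Finset.sum_mul]

theorem KS_mono {A B P : Type} [CStarAlgebra A] [CStarAlgebra B] [CStarAlgebra P]
    {iA : A →⋆ₐ[ℂ] P} {iB : B →⋆ₐ[ℂ] P} {f : P →L[ℂ] ℂ} {G G' : Finset P} {FA FA' : Finset A}
    {FB FB' : Finset B} {δ δ' : ℝ} {πA : A → (H0 →L[ℂ] H0)} {πB : B → (H0 →L[ℂ] H0)} {ζ : P → H0}
    (h : Rlz iA iB f G' FA' FB' δ' πA πB ζ) (hG : G ⊆ G') (hA : FA ⊆ FA') (hB : FB ⊆ FB')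
    (hδ : δ' ≤ δ) : Rlz iA iB f G FA FB δ πA πB ζ :=
  ⟨fun p hp q hq => (h.1 p (hG hp) q (hG hq)).trans_le hδ,
    fun p hp q hq a ha => (h.2.1 p (hG hp) q (hG hq) a (hA ha)).trans_le hδ,
    fun p hp q hq b hb => (h.2.2 p (hG hp) q (hG hq) b (hB hb)).trans_le hδ⟩

/-- null sequences applied to the bounded vectors `ζ n p` -/
theorem KS_null {s : Fin 2 → (H0 →L[ℂ] H0)} {ω : Ultrafilter ℕ} [Nontrivial (O2 s)]
    {z : Bdd (O2 s)} (hz : omk (O2 s) ω z = 0) {v : ℕ → H0} {M : ℝ}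
    (hv : ∀ᶠ n in (ω : Filter ℕ), ‖v n‖ ≤ M) {ε : ℝ} (hε : 0 < ε) :
    ∀ᶠ n in (ω : Filter ℕ), ‖((z n : O2 s) : H0 →L[ℂ] H0) (v n)‖ < ε := by
  have h1 := omk_norm (O2 s) ω z
  rw [hz, norm_zero] at h1
  have h2 : 0 < ε / (|M| + 1) := by positivity
  filter_upwards [h1.eventually (gt_mem_nhds h2), hv] with n hn hvn
  have h3 : ‖((z n : O2 s) : H0 →L[ℂ] H0)‖ < ε / (|M| + 1) := hn
  have h4 : ‖v n‖ ≤ |M| := hvn.trans (le_abs_self M)
  calc ‖((z n : O2 s) : H0 →L[ℂ] H0) (v n)‖ ≤ ‖((z n : O2 s) : H0 →L[ℂ] H0)‖ * ‖v n‖ :=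
        ContinuousLinearMap.le_opNorm _ _
    _ ≤ (ε / (|M| + 1)) * |M| := by
        exact mul_le_mul h3.le h4 (norm_nonneg _) h2.le
    _ < (ε / (|M| + 1)) * (|M| + 1) := by
        exact mul_lt_mul_of_pos_left (by linarith) h2
    _ = ε := by
        field_simp

theorem KS_bdd {P : Type} [CStarAlgebra P] {f : P →L[ℂ] ℂ} {ζ : P → H0} {p : P} {δ : ℝ}
    (h : ‖inner ℂ (ζ p) (ζ p) - f (star p * p)‖ < δ) (hδ : δ ≤ 1) :
    ‖ζ p‖ ≤ ‖f (star p * p)‖ + 2 := by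
  have h1 : ‖ζ p‖ ^ 2 = ‖inner ℂ (ζ p) (ζ p)‖ := by
    rw [inner_self_eq_norm_sq_to_K, norm_pow]
    simp
  have h2 : ‖inner ℂ (ζ p) (ζ p)‖ ≤ ‖inner ℂ (ζ p) (ζ p) - f (star p * p)‖ + ‖f (star p * p)‖ := by
    have := norm_add_le (inner ℂ (ζ p) (ζ p) - f (star p * p)) (f (star p * p))
    rwa [sub_add_cancel] at this
  have h3 := norm_nonneg (ζ p)
  have h4 := norm_nonneg (f (star p * p))
  nlinarith

variable {s : Fin 2 → (H0 →L[ℂ] H0)} {ω : Ultrafilter ℕ} [Nontrivial (O2 s)]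
    {A B P : Type} [CStarAlgebra A] [CStarAlgebra B] [CStarAlgebra P]
    {iA : A →⋆ₐ[ℂ] P} {iB : B →⋆ₐ[ℂ] P} {f : P →L[ℂ] ℂ}

/-- (KS) add `x p, x' p, x p + x' p` to `G`: `‖ζ(q + q') - ζ q - ζ q'‖²` is a sum of nine Gram entries with
limit `f((q+q'-q-q')* (...)) = 0`. Lifts: choose lifts `y1, y2` of `γ x`, `γ x'` (`omk_surjective`); then
`y - (y1 + y2)` is null. -/
theorem wp_add (hf : IsSt f) {x x' : P} (hx : Wp s ω iA iB f x) (hx' : Wp s ω iA iB f x') :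
    Wp s ω iA iB f (x + x') := by
  classical
  intro p ε hε
  obtain ⟨G1, FA1, FB1, δ1, hδ1, h1⟩ := hx p (ε / 8) (by positivity)
  obtain ⟨G2, FA2, FB2, δ2, hδ2, h2⟩ := hx' p (ε / 8) (by positivity)
  refine ⟨G1 ∪ G2 ∪ {p, (x + x') * p, x * p, x' * p}, FA1 ∪ FA2, FB1 ∪ FB2,
    min (min δ1 δ2) (min 1 (ε ^ 2 / 144)), by positivity, ?_⟩
  intro πA πB ζ γ hA hB hR y hy
  obtain ⟨y1, hy1⟩ := omk_surjective (O2 s) ω (γ x)
  obtain ⟨y2, hy2⟩ := omk_surjective (O2 s) ω (γ x')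
  have e1 := h1 πA πB ζ γ hA hB (by
    filter_upwards [hR] with n hn
    exact KS_mono hn (fun a ha => Finset.mem_union_left _ (Finset.mem_union_left _ ha))
      Finset.subset_union_left Finset.subset_union_left
      ((min_le_left _ _).trans (min_le_left _ _))) y1 hy1
  have e2 := h2 πA πB ζ γ hA hB (by
    filter_upwards [hR] with n hn
    exact KS_mono hn (fun a ha => Finset.mem_union_left _ (Finset.mem_union_right _ ha))
      Finset.subset_union_right Finset.subset_union_right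
      ((min_le_left _ _).trans (min_le_right _ _))) y2 hy2
  have hpG : p ∈ G1 ∪ G2 ∪ {p, (x + x') * p, x * p, x' * p} :=
    Finset.mem_union_right _ (by simp)
  have hg : γ (x + x') = γ x + γ x' := map_add γ x x'
  have hom : omk (O2 s) ω (y - (y1 + y2)) =
      omk (O2 s) ω y - (omk (O2 s) ω y1 + omk (O2 s) ω y2) := rfl
  have e3 := KS_null (s := s) (ω := ω) (z := y - (y1 + y2)) (by
    rw [hom, hy, hy1, hy2, hg, sub_self])
    (v := fun n => ζ n p) (M := ‖f (star p * p)‖ + 2) (by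
      filter_upwards [hR] with n hn
      exact KS_bdd (hn.1 p hpG p hpG) ((min_le_right _ _).trans (min_le_left _ _)))
    (ε := ε / 8) (by positivity)
  filter_upwards [hR, e1, e2, e3] with n hn h3 h4 h5
  have hgram := KS_gram f (ζ n) (δ := ε ^ 2 / 144) (k := 3) ![1, -1, -1]
    ![(x + x') * p, x * p, x' * p] (by
      rw [Fin.sum_univ_three]
      show (1 : ℂ) • ((x + x') * p) + (-1 : ℂ) • (x * p) + (-1 : ℂ) • (x' * p) = 0
      rw [one_smul, neg_one_smul, neg_one_smul, add_mul]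
      abel) (by
      intro i j
      refine (hn.1 _ ?_ _ ?_).le.trans ((min_le_right _ _).trans (min_le_right _ _))
      · apply Finset.mem_union_right
        fin_cases i <;> simp
      · apply Finset.mem_union_right
        fin_cases j <;> simp)
  have h6 : ‖ζ n ((x + x') * p) - ζ n (x * p) - ζ n (x' * p)‖ ≤ ε / 4 := by
    have h7 : ∑ i, (![1, -1, -1] : Fin 3 → ℂ) i • ζ n ((![(x + x') * p, x * p, x' * p] : Fin 3 → P) i) =
        ζ n ((x + x') * p) - ζ n (x * p) - ζ n (x' * p) := by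
      rw [Fin.sum_univ_three]
      show (1 : ℂ) • ζ n ((x + x') * p) + (-1 : ℂ) • ζ n (x * p) + (-1 : ℂ) • ζ n (x' * p) = _
      rw [one_smul, neg_one_smul, neg_one_smul]
      abel
    have h8 : ∑ i, ‖(![1, -1, -1] : Fin 3 → ℂ) i‖ = 3 := by
      rw [Fin.sum_univ_three]
      simp
      norm_num
    rw [h7, h8] at hgram
    apply le_of_sq_le_sq _ (by positivity)
    calc _ ≤ _ := hgram
      _ = (ε / 4) ^ 2 := by ring
  have h9 : ((y n : O2 s) : H0 →L[ℂ] H0) (ζ n p) - ζ n ((x + x') * p) =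
      (((y - (y1 + y2)) n : O2 s) : H0 →L[ℂ] H0) (ζ n p) +
      ((((y1 n : O2 s) : H0 →L[ℂ] H0) (ζ n p) - ζ n (x * p)) +
      (((y2 n : O2 s) : H0 →L[ℂ] H0) (ζ n p) - ζ n (x' * p))) -
      (ζ n ((x + x') * p) - ζ n (x * p) - ζ n (x' * p)) := by
    have h10 : (((y - (y1 + y2)) n : O2 s) : H0 →L[ℂ] H0) (ζ n p) =
        ((y n : O2 s) : H0 →L[ℂ] H0) (ζ n p) - (((y1 n : O2 s) : H0 →L[ℂ] H0) (ζ n p) +
          ((y2 n : O2 s) : H0 →L[ℂ] H0) (ζ n p)) := rfl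
    rw [h10]
    abel
  rw [h9]
  have h11 := norm_sub_le ((((y - (y1 + y2)) n : O2 s) : H0 →L[ℂ] H0) (ζ n p) +
      ((((y1 n : O2 s) : H0 →L[ℂ] H0) (ζ n p) - ζ n (x * p)) +
      (((y2 n : O2 s) : H0 →L[ℂ] H0) (ζ n p) - ζ n (x' * p))))
      (ζ n ((x + x') * p) - ζ n (x * p) - ζ n (x' * p))
  have h12 := norm_add_le ((((y - (y1 + y2)) n : O2 s) : H0 →L[ℂ] H0) (ζ n p))
      ((((y1 n : O2 s) : H0 →L[ℂ] H0) (ζ n p) - ζ n (x * p)) +
      (((y2 n : O2 s) : H0 →L[ℂ] H0) (ζ n p) - ζ n (x' * p)))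
  have h13 := norm_add_le (((y1 n : O2 s) : H0 →L[ℂ] H0) (ζ n p) - ζ n (x * p))
      (((y2 n : O2 s) : H0 →L[ℂ] H0) (ζ n p) - ζ n (x' * p))
  linarith

/-- (KC) scalars: `‖ζ(c p) - c ζ p‖²` through the Gram matrix. -/
theorem wp_scalar (hf : IsSt f) (c : ℂ) : Wp s ω iA iB f (algebraMap ℂ P c) := by
  classical
  intro p ε hε
  obtain ⟨K, hK⟩ : ∃ K, K = 1 + ‖c‖ := ⟨_, rfl⟩
  have hK0 : 0 < K := by
    rw [hK]
    positivity
  refine ⟨{p, algebraMap ℂ P c * p}, ∅, ∅, min 1 (ε ^ 2 / (16 * K ^ 2)), by positivity, ?_⟩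
  intro πA πB ζ γ hA hB hR y hy
  have e3 := KS_null (s := s) (ω := ω) (z := y - algebraMap ℂ (Bdd (O2 s)) c) (by
    rw [map_sub, hy, AlgHomClass.commutes, AlgHomClass.commutes, sub_self])
    (v := fun n => ζ n p) (M := ‖f (star p * p)‖ + 2) (by
      filter_upwards [hR] with n hn
      exact KS_bdd (hn.1 p (by simp) p (by simp)) (min_le_left _ _))
    (ε := ε / 4) (by positivity)
  filter_upwards [hR, e3] with n hn h5
  have hgram := KS_gram f (ζ n) (δ := ε ^ 2 / (16 * K ^ 2)) (k := 2) ![1, -c]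
    ![algebraMap ℂ P c * p, p] (by
      rw [Fin.sum_univ_two]
      simp only [Matrix.cons_val_zero, Matrix.cons_val_one, one_smul, neg_smul]
      rw [Algebra.algebraMap_eq_smul_one, smul_mul_assoc, one_mul]
      abel) (by
      intro i j
      refine (hn.1 _ ?_ _ ?_).le.trans (min_le_right _ _)
      · fin_cases i <;> simp
      · fin_cases j <;> simp)
  have h6 : ‖ζ n (algebraMap ℂ P c * p) - c • ζ n p‖ ≤ ε / 4 := by
    have h7 : ∑ i, (![1, -c] : Fin 2 → ℂ) i • ζ n ((![algebraMap ℂ P c * p, p] : Fin 2 → P) i) =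
        ζ n (algebraMap ℂ P c * p) - c • ζ n p := by
      rw [Fin.sum_univ_two]
      simp only [Matrix.cons_val_zero, Matrix.cons_val_one, one_smul, neg_smul]
      abel
    have h8 : ∑ i, ‖(![1, -c] : Fin 2 → ℂ) i‖ = K := by
      rw [Fin.sum_univ_two, hK]
      simp
    rw [h7, h8] at hgram
    apply le_of_sq_le_sq _ (by positivity)
    calc _ ≤ _ := hgram
      _ = (ε / 4) ^ 2 := by
        field_simp
        norm_num
  have h9 : ((y n : O2 s) : H0 →L[ℂ] H0) (ζ n p) - ζ n (algebraMap ℂ P c * p) =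
      (((y - algebraMap ℂ (Bdd (O2 s)) c) n : O2 s) : H0 →L[ℂ] H0) (ζ n p) -
      (ζ n (algebraMap ℂ P c * p) - c • ζ n p) := by
    have h10 : (((y - algebraMap ℂ (Bdd (O2 s)) c) n : O2 s) : H0 →L[ℂ] H0) (ζ n p) =
        ((y n : O2 s) : H0 →L[ℂ] H0) (ζ n p) - c • ζ n p := by
      rw [Algebra.algebraMap_eq_smul_one]
      rfl
    rw [h10]
    abel
  rw [h9]
  have h11 := norm_sub_le ((((y - algebraMap ℂ (Bdd (O2 s)) c) n : O2 s) : H0 →L[ℂ] H0) (ζ n p))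
      (ζ n (algebraMap ℂ P c * p) - c • ζ n p)
  linarith

end Vale.Agent.P083K
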