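import Vale.Agent.P083K.Defs2

open Filter Topology Matrix
open scoped ENNReal

namespace Vale.Agent.P083K

open Vale.Agent.P101K

private theorem S0_orth : Orthonormal ℂ bv := by
  have h1 := (HilbertBasis.ofRepr (LinearIsometryEquiv.refl ℂ H0)).orthonormal
  have h2 : (⇑(HilbertBasis.ofRepr (LinearIsometryEquiv.refl ℂ H0)) : ℕ → H0) = bv := by
    funext n
    rw [← HilbertBasis.repr_symm_single]
    rfl
  rw [h2] at h1
  exact h1

/-- (S0) build `s i` as the continuous linear map of the linear isometry sending the orthonormal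
family `bv n` to the orthonormal family `bv (2 n + i)` (e.g. `OrthogonalFamily`/`HilbertBasis`:
`HilbertBasis.ofRepr` identity gives the basis, `Orthonormal` family gives
`OrthogonalFamily.linearIsometry`, or reindex coordinates directly in `lp`). -/
theorem exists_cuntz : ∃ s : Fin 2 → (H0 →L[ℂ] H0), IsCuntz s := by
  have h1 : ∀ i : Fin 2, ∃ T : H0 →L[ℂ] H0, ∀ n : ℕ, T (bv n) = bv (2 * n + i) := by
    intro i
    have hinj : Function.Injective fun n : ℕ => 2 * n + (i : ℕ) := by
      intro a b hab
      have : 2 * a + (i : ℕ) = 2 * b + i := hab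
      omega
    have hv : Orthonormal ℂ (fun n : ℕ => bv (2 * n + i)) := S0_orth.comp _ hinj
    refine ⟨(hv.orthogonalFamily.linearIsometry).toContinuousLinearMap, fun n => ?_⟩
    have h3 := hv.orthogonalFamily.linearIsometry_apply_single (i := n) (1 : ℂ)
    rw [LinearIsometry.toSpanSingleton_apply, one_smul] at h3
    exact h3
  choose s hs using h1
  exact ⟨s, hs⟩

end Vale.Agent.P083K
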