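import Vale.Agent.P083K.Defs2

open Filter Topology Matrix
open scoped ENNReal

namespace Vale.Agent.P083K

open Vale.Agent.P101K

theorem S1_coord (n : ℕ) (x : H0) : inner ℂ (bv n) x = x n := by
  unfold bv
  rw [lp.inner_single_left]
  simp

theorem S1_bv (m n : ℕ) : (bv n : H0) m = if m = n then 1 else 0 := by
  unfold bv
  by_cases h : m = n
  · subst h
    simp
  · rw [if_neg h, lp.coeFn_single, Pi.single_eq_of_ne h]

theorem S1_vec {x y : H0} (h : ∀ m, inner ℂ (bv m) x = inner ℂ (bv m) y) : x = y := by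
  apply lp.ext
  funext m
  rw [← S1_coord, ← S1_coord, h]

theorem S1_ext {T T' : H0 →L[ℂ] H0} (h : ∀ n, T (bv n) = T' (bv n)) : T = T' := by
  apply ContinuousLinearMap.ext
  intro f
  have h1 : HasSum (fun i => lp.single 2 i (f i)) f :=
    lp.hasSum_single (by norm_num) f
  have e : ∀ i, (lp.single 2 i (f i) : H0) = f i • bv i := by
    intro i
    unfold bv
    rw [← lp.single_smul, smul_eq_mul, mul_one]
  simp only [e] at h1
  have h2 := h1.mapL T
  have h3 := h1.mapL T'
  simp only [map_smul, h] at h2 h3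
  exact h2.unique h3

theorem S1_star {s : Fin 2 → (H0 →L[ℂ] H0)} (hs : IsCuntz s) (i j : Fin 2) (n : ℕ) :
    star (s i) (bv (2 * n + j)) = if i = j then bv n else 0 := by
  apply S1_vec
  intro m
  rw [ContinuousLinearMap.star_eq_adjoint, ContinuousLinearMap.adjoint_inner_right, hs i m,
    S1_coord, S1_bv]
  have hi := i.2
  have hj := j.2
  by_cases h : i = j
  · subst h
    rw [if_pos rfl, S1_coord, S1_bv]
    by_cases hm : m = n
    · rw [if_pos hm, if_pos (by omega)]
    · rw [if_neg hm, if_neg (by omega)]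
  · have h' : i.val ≠ j.val := fun h0 => h (Fin.ext h0)
    rw [if_neg h, inner_zero_right, if_neg (by omega)]

/-- (S1) the span of the `bv n` is dense, they are orthonormal; compare matrix coefficients. -/
theorem cz_rel {s : Fin 2 → (H0 →L[ℂ] H0)} (hs : IsCuntz s) :
    star (s 0) * s 0 = 1 ∧ star (s 1) * s 1 = 1 ∧ star (s 0) * s 1 = 0 ∧ star (s 1) * s 0 = 0 ∧
      s 0 * star (s 0) + s 1 * star (s 1) = 1 := by
  have key : ∀ i j : Fin 2, ∀ n, (star (s i) * s j) (bv n) = if i = j then bv n else 0 := by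
    intro i j n
    rw [ContinuousLinearMap.mul_apply, hs j n, S1_star hs]
  refine ⟨S1_ext fun n => ?_, S1_ext fun n => ?_, S1_ext fun n => ?_, S1_ext fun n => ?_,
    S1_ext fun k => ?_⟩
  · rw [key, if_pos rfl]
    rfl
  · rw [key, if_pos rfl]
    rfl
  · rw [key, if_neg (by decide)]
    rfl
  · rw [key, if_neg (by decide)]
    rfl
  · rw [ContinuousLinearMap.add_apply, ContinuousLinearMap.mul_apply,
      ContinuousLinearMap.mul_apply, ContinuousLinearMap.one_apply]
    rcases Nat.even_or_odd' k with ⟨n, hn | hn⟩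
    · have e : k = 2 * n + (0 : Fin 2).val := by simpa using hn
      rw [e, S1_star hs 0 0, S1_star hs 1 0, if_pos rfl, if_neg (by decide), map_zero, add_zero,
        hs 0 n]
    · have e : k = 2 * n + (1 : Fin 2).val := by simpa using hn
      rw [e, S1_star hs 0 1, S1_star hs 1 1, if_neg (by decide), if_pos rfl, map_zero, zero_add,
        hs 1 n]

end Vale.Agent.P083K
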