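import Vale.Agent.P083K.Defs2

open Filter Topology Matrix
open scoped ENNReal ComplexOrder

namespace Vale.Agent.P083K

open Vale.Agent.P101K

theorem ST_real {B : Type*} [CStarAlgebra B] (ψ : B →L[ℂ] ℂ) (h1 : ψ 1 = 1)
    (hn : ∀ b, ‖ψ b‖ ≤ ‖b‖) (y : B) (hy : IsSelfAdjoint y) : (ψ y).im = 0 := by
  obtain ⟨β, hβ⟩ : ∃ β, β = (ψ y).im := ⟨_, rfl⟩
  have key : ∀ t : ℝ, (β + t) ^ 2 ≤ ‖y‖ ^ 2 + t ^ 2 * ‖(1 : B)‖ := by
    intro t
    have e1 : ψ (y + ((t : ℂ) * Complex.I) • (1 : B)) = ψ y + (t : ℂ) * Complex.I := by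
      rw [map_add, map_smul, h1, smul_eq_mul, mul_one]
    have e2 : (ψ (y + ((t : ℂ) * Complex.I) • (1 : B))).im = β + t := by
      rw [e1, hβ]
      simp
    have e3 : (β + t) ^ 2 ≤ ‖ψ (y + ((t : ℂ) * Complex.I) • (1 : B))‖ ^ 2 := by
      rw [← e2, ← sq_abs]
      exact pow_le_pow_left₀ (abs_nonneg _) (Complex.abs_im_le_norm _) 2
    have e4 : ‖ψ (y + ((t : ℂ) * Complex.I) • (1 : B))‖ ^ 2 ≤
        ‖y + ((t : ℂ) * Complex.I) • (1 : B)‖ ^ 2 :=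
      pow_le_pow_left₀ (norm_nonneg _) (hn _) 2
    have e5 : star (y + ((t : ℂ) * Complex.I) • (1 : B)) * (y + ((t : ℂ) * Complex.I) • (1 : B)) =
        y * y + ((t : ℂ) ^ 2) • (1 : B) := by
      have hc : star ((t : ℂ) * Complex.I) = -((t : ℂ) * Complex.I) := by
        rw [star_mul', Complex.star_def, Complex.conj_ofReal, Complex.conj_I]
        ring
      have hc2 : (t : ℂ) ^ 2 = -(((t : ℂ) * Complex.I) * ((t : ℂ) * Complex.I)) := by
        have := Complex.I_mul_I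
        linear_combination ((t : ℂ) ^ 2) * this
      rw [star_add, star_smul, star_one, hy.star_eq, hc, hc2]
      generalize (t : ℂ) * Complex.I = c
      rw [neg_smul, neg_smul, add_mul, mul_add, mul_add, neg_mul, neg_mul, smul_mul_assoc,
        smul_mul_assoc, mul_smul_comm, one_mul, one_mul, mul_one, smul_smul]
      abel
    have e8 : ‖y + ((t : ℂ) * Complex.I) • (1 : B)‖ ^ 2 ≤ ‖y‖ ^ 2 + t ^ 2 * ‖(1 : B)‖ := by
      rw [sq, ← CStarRing.norm_star_mul_self, e5]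
      refine (norm_add_le _ _).trans (add_le_add ?_ ?_)
      · rw [sq]
        exact norm_mul_le _ _
      · rw [norm_smul]
        simp
    linarith
  by_contra hne
  rw [← hβ] at hne
  have hβ0 : 0 < β ^ 2 := by positivity
  rcases subsingleton_or_nontrivial B with hB | hB
  · apply hne
    rw [hβ]
    have : y = 0 := Subsingleton.elim _ _
    rw [this, map_zero, Complex.zero_im]
  · have h2 := key (‖y‖ ^ 2 / (2 * β) )
    rw [norm_one, mul_one] at h2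
    have h3 : 2 * β * (‖y‖ ^ 2 / (2 * β)) = ‖y‖ ^ 2 := by
      field_simp
    nlinarith

theorem ST_pos {B : Type*} [CStarAlgebra B] (ψ : B →L[ℂ] ℂ) (h1 : ψ 1 = 1)
    (hn : ∀ b, ‖ψ b‖ ≤ ‖b‖) (b : B) : 0 ≤ ψ (star b * b) := by
  have hsa : IsSelfAdjoint (star b * b) := IsSelfAdjoint.star_mul_self b
  have him := ST_real ψ h1 hn _ hsa
  have hsp : SpectrumRestricts (star b * b) ContinuousMap.realToNNReal :=
    SpectrumRestricts.nnreal_iff.2 spectrum_star_mul_self_nonneg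
  have h2 := (SpectrumRestricts.nnreal_iff_nnnorm hsa le_rfl).1 hsp
  have h3 : ‖algebraMap ℝ B ‖star b * b‖ - star b * b‖ ≤ ‖star b * b‖ := by
    exact_mod_cast h2
  have h4 := (hn _).trans h3
  have h5 : ψ (algebraMap ℝ B ‖star b * b‖) = (‖star b * b‖ : ℂ) := by
    have : algebraMap ℝ B ‖star b * b‖ = ((‖star b * b‖ : ℝ) : ℂ) • (1 : B) := by
      rw [Algebra.algebraMap_eq_smul_one]
      exact (Complex.coe_smul _ _).symm
    rw [this, map_smul, h1, smul_eq_mul, mul_one]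
  rw [map_sub, h5] at h4
  have h6 := (Complex.abs_re_le_norm _).trans h4
  rw [Complex.sub_re, Complex.ofReal_re, abs_le] at h6
  rw [Complex.nonneg_iff]
  exact ⟨by linarith [h6.2], him.symm⟩


theorem ST_core {C : Type} [CStarAlgebra C] [Nontrivial C] (a : C) (ha : a ≠ 0) :
    ∃ ψ : C →L[ℂ] ℂ, ψ 1 = 1 ∧ (∀ b, ‖ψ b‖ ≤ ‖b‖) ∧ ψ (star a * a) = ((‖a‖ ^ 2 : ℝ) : ℂ) := by
  obtain ⟨x, hx⟩ : ∃ x : C, x = star a * a := ⟨_, rfl⟩
  have hxn : ‖x‖ = ‖a‖ ^ 2 := by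
    rw [hx, CStarRing.norm_star_mul_self, sq]
  have hnx : ‖x‖ ≠ 0 := by
    rw [hxn]
    have : ‖a‖ ≠ 0 := norm_ne_zero_iff.2 ha
    positivity
  have hsa : IsSelfAdjoint x := by rw [hx]; exact IsSelfAdjoint.star_mul_self _
  have hmem : ‖x‖ ∈ spectrum ℝ x := by
    rcases CStarAlgebra.norm_or_neg_norm_mem_spectrum hsa with h | h
    · exact h
    · exfalso
      have h2 : 0 ≤ -‖x‖ := by
        rw [hx] at h ⊢
        exact spectrum_star_mul_self_nonneg _ h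
      exact hnx (le_antisymm (by linarith) (norm_nonneg _))
  obtain ⟨y, hy⟩ : ∃ y : C, y = algebraMap ℝ C ‖x‖ + x := ⟨_, rfl⟩
  have hmy : ‖x‖ + ‖x‖ ∈ spectrum ℝ y := by
    rw [hy]
    exact spectrum.add_mem_add_iff.2 hmem
  have hny : 2 * ‖x‖ ≤ ‖y‖ := by
    have := spectrum.norm_le_norm_of_mem hmy
    rw [Real.norm_eq_abs] at this
    have h2 := le_abs_self (‖x‖ + ‖x‖)
    linarith
  obtain ⟨ψ, hψ1, hψy⟩ := exists_dual_vector'' ℂ y
  have hψn : ∀ b, ‖ψ b‖ ≤ ‖b‖ := fun b => by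
    have := ψ.le_opNorm b
    have h2 : ‖ψ‖ * ‖b‖ ≤ 1 * ‖b‖ := mul_le_mul_of_nonneg_right hψ1 (norm_nonneg _)
    linarith
  have hψy2 : ψ y = (‖x‖ : ℂ) * ψ 1 + ψ x := by
    have : algebraMap ℝ C ‖x‖ = ((‖x‖ : ℝ) : ℂ) • (1 : C) := by
      rw [Algebra.algebraMap_eq_smul_one]
      exact (Complex.coe_smul _ _).symm
    rw [hy, map_add, this, map_smul, smul_eq_mul]
  have hre : 2 * ‖x‖ ≤ ‖x‖ * (ψ 1).re + (ψ x).re := by
    have h2 := congrArg Complex.re (hψy2.symm.trans hψy)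
    rw [Complex.add_re, Complex.re_ofReal_mul] at h2
    have h3 : ((‖y‖ : ℝ) : ℂ).re = ‖y‖ := Complex.ofReal_re _
    have h4 : ‖x‖ * (ψ 1).re + (ψ x).re = ‖y‖ := by
      rw [h2]
      exact h3
    linarith
  have hx0 : 0 < ‖x‖ := lt_of_le_of_ne (norm_nonneg _) (Ne.symm hnx)
  have hr1 : (ψ 1).re ≤ 1 := by
    have h2 := (Complex.re_le_norm _).trans (hψn 1)
    rwa [norm_one] at h2
  have hrx : (ψ x).re ≤ ‖x‖ := (Complex.re_le_norm _).trans (hψn x)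
  have hr1' : (ψ 1).re = 1 := by
    by_contra hne
    have h2 : (ψ 1).re < 1 := lt_of_le_of_ne hr1 hne
    nlinarith
  have hrx' : (ψ x).re = ‖x‖ := by
    rw [hr1'] at hre
    linarith
  have h1 : ψ 1 = 1 := by
    have h2 : ‖ψ 1‖ ≤ 1 := by
      have := hψn 1
      rwa [norm_one] at this
    have h3 : (ψ 1).im = 0 := by
      have h4 : ‖ψ 1‖ ^ 2 = (ψ 1).re ^ 2 + (ψ 1).im ^ 2 := by
        rw [← Complex.normSq_eq_norm_sq, Complex.normSq_apply]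
        ring
      have h5 : ‖ψ 1‖ ^ 2 ≤ 1 := pow_le_one₀ (norm_nonneg _) h2
      rw [hr1'] at h4
      have h6 : (ψ 1).im ^ 2 ≤ 0 := by linarith
      exact pow_eq_zero_iff (two_ne_zero) |>.1 (le_antisymm h6 (sq_nonneg _))
    apply Complex.ext
    · rw [hr1', Complex.one_re]
    · rw [h3, Complex.one_im]
  refine ⟨ψ, h1, hψn, ?_⟩
  rw [← hx, ← hxn]
  apply Complex.ext
  · rw [hrx', Complex.ofReal_re]
  · rw [ST_real ψ h1 hψn x hsa, Complex.ofReal_im]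

theorem ST_all {C : Type} [CStarAlgebra C] [Nontrivial C] (a : C) :
    ∃ ψ : C →L[ℂ] ℂ, ψ 1 = 1 ∧ (∀ b, ‖ψ b‖ ≤ ‖b‖) ∧ ψ (star a * a) = ((‖a‖ ^ 2 : ℝ) : ℂ) := by
  by_cases ha : a = 0
  · obtain ⟨ψ, h1, h2, -⟩ := ST_core (1 : C) one_ne_zero
    refine ⟨ψ, h1, h2, ?_⟩
    rw [ha, mul_zero, map_zero, norm_zero]
    norm_num
  · exact ST_core a ha


/-- (ST) norming state: a functional of norm one with `f 1 = 1` is positive. -/
theorem exists_norming_state {P : Type} [CStarAlgebra P] [Nontrivial P] (x : P) :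
    ∃ f : P →L[ℂ] ℂ, IsSt f ∧ f (star x * x) = ((‖x‖ ^ 2 : ℝ) : ℂ) := by
  obtain ⟨φ, h1, hn, hx⟩ := ST_all x
  refine ⟨φ, ⟨h1, fun y => ?_⟩, hx⟩
  obtain ⟨h2, h3⟩ := Complex.nonneg_iff.1 (ST_pos φ h1 hn y)
  refine ⟨(φ (star y * y)).re, h2, ?_⟩
  apply Complex.ext
  · rw [Complex.ofReal_re]
  · rw [Complex.ofReal_im, ← h3]

end Vale.Agent.P083K
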