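import Vale.Agent.P083K.Defs3

open Filter Topology Matrix
open scoped ENNReal

namespace Vale.Agent.P083K

open Vale.Agent.P101K

variable {s : Fin 2 → (H0 →L[ℂ] H0)} {ω : Ultrafilter ℕ} {A : Type} {φ : ℕ → A → (H0 →L[ℂ] H0)}
  {r : ℕ} {a : Fin r → A} {k : ℕ}

/-- (V0) closed: `z` in the closure, take `z'` in the set within `ε / 2` (sup norm). -/
theorem realK_closed : IsClosed (RealK s ω φ a k) := by
  refine isClosed_of_closure_subset fun z hz => ?_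
  rw [Metric.mem_closure_iff] at hz
  intro ε hε
  obtain ⟨z', hz', hd⟩ := hz (ε / 2) (by positivity)
  filter_upwards [hz' (ε / 2) (by positivity)] with n hn
  obtain ⟨m, ζ, hζ⟩ := hn
  refine ⟨m, ζ, fun t i j => ?_⟩
  have h1 := hζ t i j
  have h2 : ‖z' (t, i, j) - z (t, i, j)‖ < ε / 2 := by
    rw [← dist_eq_norm, dist_comm]
    exact (dist_le_pi_dist z z' (t, i, j)).trans_lt hd
  have h3 : inner ℂ (ζ i) ((lam s)^[m] (φ n (a t)) (ζ j)) - z (t, i, j) =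
      (inner ℂ (ζ i) ((lam s)^[m] (φ n (a t)) (ζ j)) - z' (t, i, j)) +
        (z' (t, i, j) - z (t, i, j)) := by ring
  rw [h3]
  refine (norm_add_le _ _).trans_lt ?_
  linarith

theorem realK_zero : (0 : Fin r × Fin k × Fin k → ℂ) ∈ RealK s ω φ a k := by
  intro ε hε
  refine Filter.Eventually.of_forall fun n => ⟨0, fun _ => 0, fun t i j => ?_⟩
  rw [inner_zero_left, Pi.zero_apply, sub_zero, norm_zero]
  exact hε

/-- scale the vectors by `√t`. -/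
theorem realK_smul {z : Fin r × Fin k × Fin k → ℂ} (hz : z ∈ RealK s ω φ a k) {t : ℝ} (ht : 0 ≤ t) :
    (t : ℂ) • z ∈ RealK s ω φ a k := by
  intro ε hε
  have ht1 : 0 < t + 1 := by linarith
  filter_upwards [hz (ε / (t + 1)) (by positivity)] with n hn
  obtain ⟨m, ζ, hζ⟩ := hn
  refine ⟨m, fun i => ((Real.sqrt t : ℝ) : ℂ) • ζ i, fun l i j => ?_⟩
  have h1 := hζ l i j
  have h2 : inner ℂ (((Real.sqrt t : ℝ) : ℂ) • ζ i)
      ((lam s)^[m] (φ n (a l)) (((Real.sqrt t : ℝ) : ℂ) • ζ j)) - ((t : ℂ) • z) (l, i, j) =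
      (t : ℂ) * (inner ℂ (ζ i) ((lam s)^[m] (φ n (a l)) (ζ j)) - z (l, i, j)) := by
    rw [map_smul, inner_smul_left, inner_smul_right, Complex.conj_ofReal, ← mul_assoc,
      ← Complex.ofReal_mul, Real.mul_self_sqrt ht, Pi.smul_apply, smul_eq_mul]
    ring
  rw [h2, norm_mul, Complex.norm_real, Real.norm_eq_abs, abs_of_nonneg ht]
  have h3 : t * ‖inner ℂ (ζ i) ((lam s)^[m] (φ n (a l)) (ζ j)) - z (l, i, j)‖ ≤
      t * (ε / (t + 1)) := mul_le_mul_of_nonneg_left h1.le ht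
  refine h3.trans_lt ?_
  rw [← mul_div_assoc, div_lt_iff₀ ht1]
  nlinarith

private theorem V0_inner (S T : H0 →L[ℂ] H0) (x y : H0) :
    inner ℂ (S x) (T y) = inner ℂ x ((star S * T) y) := by
  rw [ContinuousLinearMap.star_eq_adjoint]
  show _ = inner ℂ x (ContinuousLinearMap.adjoint S (T y))
  rw [ContinuousLinearMap.adjoint_inner_right]

private theorem V0_lam0 (hs : CzRel s) (y : H0 →L[ℂ] H0) (x : H0) :
    lam s y (s 0 x) = s 0 (y x) := by
  obtain ⟨h1, h2, h3, h4, h5⟩ := hs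
  have h : lam s y * s 0 = s 0 * y := by
    unfold lam
    rw [add_mul, mul_assoc, mul_assoc, mul_assoc, mul_assoc, h1, h4]
    simp
  exact DFunLike.congr_fun h x

private theorem V0_lam1 (hs : CzRel s) (y : H0 →L[ℂ] H0) (x : H0) :
    lam s y (s 1 x) = s 1 (y x) := by
  obtain ⟨h1, h2, h3, h4, h5⟩ := hs
  have h : lam s y * s 1 = s 1 * y := by
    unfold lam
    rw [add_mul, mul_assoc, mul_assoc, mul_assoc, mul_assoc, h2, h3]
    simp
  exact DFunLike.congr_fun h x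

private theorem V0_lift (hs : CzRel s) (m d : ℕ) (ζ : Fin k → H0) :
    ∃ ζ1 : Fin k → H0, ∀ (x : H0 →L[ℂ] H0) (i j : Fin k),
      inner ℂ (ζ1 i) ((lam s)^[m + d] x (ζ1 j)) = inner ℂ (ζ i) ((lam s)^[m] x (ζ j)) := by
  induction d with
  | zero => exact ⟨ζ, fun x i j => rfl⟩
  | succ d ih =>
    obtain ⟨ζ1, h⟩ := ih
    refine ⟨fun i => s 0 (ζ1 i), fun x i j => ?_⟩
    have e : m + (d + 1) = (m + d) + 1 := rfl
    rw [e, Function.iterate_succ_apply', V0_lam0 hs, V0_inner, hs.1, ← h x i j]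
    rfl

/-- `⟪s_0 ζ_i, Λ(x) s_0 ζ_j⟫ = ⟪ζ_i, x ζ_j⟫`, so the exponents can be made equal; then use
`s_0 ζ + s_1 ζ'` with `Λ^(m+1)`. -/
theorem realK_add (hs : CzRel s) {z z' : Fin r × Fin k × Fin k → ℂ} (hz : z ∈ RealK s ω φ a k)
    (hz' : z' ∈ RealK s ω φ a k) : z + z' ∈ RealK s ω φ a k := by
  intro ε hε
  filter_upwards [hz (ε / 2) (by positivity), hz' (ε / 2) (by positivity)] with n h1 h2
  obtain ⟨m, ζ, hζ⟩ := h1
  obtain ⟨m', ζ', hζ'⟩ := h2
  obtain ⟨η, hη⟩ := V0_lift hs m m' ζ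
  obtain ⟨η', hη'⟩ := V0_lift hs m' m ζ'
  refine ⟨m + m' + 1, fun i => s 0 (η i) + s 1 (η' i), fun t i j => ?_⟩
  have e : inner ℂ (s 0 (η i) + s 1 (η' i))
      ((lam s)^[m + m' + 1] (φ n (a t)) (s 0 (η j) + s 1 (η' j))) =
      inner ℂ (ζ i) ((lam s)^[m] (φ n (a t)) (ζ j)) +
        inner ℂ (ζ' i) ((lam s)^[m'] (φ n (a t)) (ζ' j)) := by
    rw [Function.iterate_succ_apply', map_add, V0_lam0 hs, V0_lam1 hs, inner_add_left,
      inner_add_right, inner_add_right, V0_inner, V0_inner, V0_inner, V0_inner, hs.1, hs.2.1,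
      hs.2.2.1, hs.2.2.2.1, ← hη, ← hη', add_comm m' m]
    simp
  rw [e]
  have e2 : inner ℂ (ζ i) ((lam s)^[m] (φ n (a t)) (ζ j)) +
        inner ℂ (ζ' i) ((lam s)^[m'] (φ n (a t)) (ζ' j)) - (z + z') (t, i, j) =
      (inner ℂ (ζ i) ((lam s)^[m] (φ n (a t)) (ζ j)) - z (t, i, j)) +
        (inner ℂ (ζ' i) ((lam s)^[m'] (φ n (a t)) (ζ' j)) - z' (t, i, j)) := by
    rw [Pi.add_apply]
    ring
  rw [e2]
  refine (norm_add_le _ _).trans_lt ?_
  have a1 := hζ t i j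
  have a2 := hζ' t i j
  linarith

end Vale.Agent.P083K
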