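import Vale.Agent.P083K.Defs3

open Filter Topology Matrix
open scoped ENNReal

namespace Vale.Agent.P083K

open Vale.Agent.P101K

/-- (V1) finite dimensional separation: `geometric_hahn_banach_closed_point` (over `ℝ`) for the closed
convex cone `K`; a bound on a cone is a sign; a real linear functional on `ι → ℂ` is
`z ↦ re (∑ c i * z i)`. -/
theorem cone_sep {ι : Type} [Fintype ι] (K : Set (ι → ℂ)) (hc : IsClosed K) (h0 : (0 : ι → ℂ) ∈ K)
    (hadd : ∀ x ∈ K, ∀ y ∈ K, x + y ∈ K) (hsm : ∀ x ∈ K, ∀ t : ℝ, 0 ≤ t → (t : ℂ) • x ∈ K)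
    (p : ι → ℂ) (hp : p ∉ K) :
    ∃ c : ι → ℂ, (∀ z ∈ K, 0 ≤ (∑ i, c i * z i).re) ∧ (∑ i, c i * p i).re < 0 := by
  classical
  have hconv : Convex ℝ K := by
    intro x hx y hy a b ha hb _
    have h1 := hsm x hx a ha
    have h2 := hsm y hy b hb
    rw [Complex.coe_smul] at h1 h2
    exact hadd _ h1 _ h2
  obtain ⟨f, u, h1, h2⟩ := geometric_hahn_banach_point_closed (E := ι → ℂ) hconv hc hp
  have hu : u < 0 := by simpa using h2 0 h0
  have hrep : ∀ z : ι → ℂ, (∑ i, ((f (Pi.single i 1) : ℂ) - (f (Pi.single i Complex.I) : ℂ) * Complex.I)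
      * z i).re = f z := by
    intro z
    rw [Complex.re_sum]
    have hz : z = ∑ i, (((z i).re) • (Pi.single i (1 : ℂ) : ι → ℂ) +
        ((z i).im) • (Pi.single i Complex.I : ι → ℂ)) := by
      ext j
      rw [Finset.sum_apply, Finset.sum_eq_single j]
      · simp only [Pi.add_apply, Pi.smul_apply, Pi.single_eq_same]
        rw [Complex.real_smul, Complex.real_smul, mul_one]
        exact (Complex.re_add_im (z j)).symm
      · intro b _ hb
        simp [Pi.single_eq_of_ne hb.symm]
      · intro h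
        exact absurd (Finset.mem_univ j) h
    conv_rhs => rw [hz]
    rw [map_sum]
    refine Finset.sum_congr rfl fun i _ => ?_
    rw [map_add, map_smul, map_smul]
    simp
    ring
  refine ⟨fun i => (f (Pi.single i 1) : ℂ) - (f (Pi.single i Complex.I) : ℂ) * Complex.I, ?_, ?_⟩
  · intro z hz
    rw [hrep z]
    by_contra hneg
    rw [not_le] at hneg
    have ht : 0 ≤ u / f z := div_nonneg_of_nonpos hu.le hneg.le
    have h3 := h2 _ (hsm z hz (u / f z) ht)
    rw [Complex.coe_smul, map_smul, smul_eq_mul, div_mul_cancel₀ _ hneg.ne] at h3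
    exact lt_irrefl _ h3
  · rw [hrep p]
    linarith

end Vale.Agent.P083K
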