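import Vale.Agent.P083K.Defs3

open Filter Topology Matrix
open scoped ENNReal

namespace Vale.Agent.P083K

open Vale.Agent.P101K

/-- (V2) otherwise for `ω`-many `n` there is `ζ^n`, normalised to `∑ ‖ζ_i‖² = 1`, with value `< -δ`; let
`z (t,i,j)` be the limit along `ω` of the bounded sequence `⟪ζ^n_i, φ n (a t) ζ^n_j⟫` (for the other `n` take
`ζ^n = 0`); `z ∈ RealK` (with `m = 0`) and the value of `c` at `z` is `≤ -δ`. -/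
theorem realK_dual {s : Fin 2 → (H0 →L[ℂ] H0)} {ω : Ultrafilter ℕ} {A : Type}
    {φ : ℕ → A → (H0 →L[ℂ] H0)} {r : ℕ} {a : Fin r → A} {k : ℕ}
    (hb : ∀ t, ∃ C : ℝ, ∀ n, ‖φ n (a t)‖ ≤ C) (c : Fin r × Fin k × Fin k → ℂ)
    (h : ∀ z ∈ RealK s ω φ a k, 0 ≤ (∑ i, c i * z i).re) {δ : ℝ} (hδ : 0 < δ) :
    ∀ᶠ n in (ω : Filter ℕ), ∀ ζ : Fin k → H0, -δ * ∑ i, ‖ζ i‖ ^ 2 ≤
      (∑ t, ∑ i, ∑ j, c (t, i, j) * inner ℂ (ζ i) (φ n (a t) (ζ j))).re := by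
  sorry

end Vale.Agent.P083K
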