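import Vale.Agent.P083K.Defs3

open Filter Topology Matrix
open scoped ENNReal

namespace Vale.Agent.P083K

open Vale.Agent.P101K

/-- `H0^k` -/
abbrev V3a_E (k : ℕ) : Type := PiLp 2 (fun _ : Fin k => H0)

/-- the coordinate projections of `H0^k` -/
noncomputable def V3a_P (k : ℕ) (i : Fin k) : V3a_E k →L[ℂ] H0 :=
  PiLp.proj 2 (fun _ : Fin k => H0) i

/-- the coordinate embeddings of `H0^k` -/
noncomputable def V3a_J (k : ℕ) (i : Fin k) : H0 →L[ℂ] V3a_E k :=
  ContinuousLinearMap.adjoint (V3a_P k i)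

theorem V3a_P_apply {k : ℕ} (i : Fin k) (x : V3a_E k) : V3a_P k i x = x i := rfl

theorem V3a_J_inner {k : ℕ} (i : Fin k) (z : H0) (x : V3a_E k) :
    inner ℂ (V3a_J k i z) x = inner ℂ z (V3a_P k i x) :=
  ContinuousLinearMap.adjoint_inner_left _ _ _

theorem V3a_J_inner' {k : ℕ} (i : Fin k) (z : H0) (x : V3a_E k) :
    inner ℂ x (V3a_J k i z) = inner ℂ (V3a_P k i x) z :=
  ContinuousLinearMap.adjoint_inner_right _ _ _

theorem V3a_J_apply {k : ℕ} (j : Fin k) (x : H0) :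
    V3a_J k j x = WithLp.toLp 2 (Pi.single j x) := by
  refine ext_inner_left ℂ fun y => ?_
  rw [V3a_J_inner', PiLp.inner_apply, Finset.sum_eq_single j]
  · simp [V3a_P_apply]
  · intro i _ hi
    simp [Pi.single_eq_of_ne hi]
  · intro h
    exact absurd (Finset.mem_univ j) h

theorem V3a_PJ {k : ℕ} (i j : Fin k) (x : H0) :
    V3a_P k i (V3a_J k j x) = if i = j then x else 0 := by
  rw [V3a_J_apply, V3a_P_apply]
  change (Pi.single j x : Fin k → H0) i = _
  rw [Pi.single_apply]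

/-- the operator on `H0^k` with the given operator matrix -/
noncomputable def V3a_T {k : ℕ} (S : Matrix (Fin k) (Fin k) (H0 →L[ℂ] H0)) :
    V3a_E k →L[ℂ] V3a_E k :=
  ∑ i, ∑ j, (V3a_J k i).comp ((S i j).comp (V3a_P k j))

theorem V3a_T_inner {k : ℕ} (S : Matrix (Fin k) (Fin k) (H0 →L[ℂ] H0)) (x y : V3a_E k) :
    inner ℂ x (V3a_T S y) = ∑ i, ∑ j, inner ℂ (x i) (S i j (y j)) := by
  rw [V3a_T, _root_.sum_apply, inner_sum]
  refine Finset.sum_congr rfl fun i _ => ?_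
  rw [_root_.sum_apply, inner_sum]
  refine Finset.sum_congr rfl fun j _ => ?_
  rw [ContinuousLinearMap.comp_apply, ContinuousLinearMap.comp_apply, V3a_J_inner']
  rfl

theorem V3a_T_JJ {k : ℕ} (S : Matrix (Fin k) (Fin k) (H0 →L[ℂ] H0)) (i j : Fin k) (z x : H0) :
    inner ℂ (V3a_J k i z) (V3a_T S (V3a_J k j x)) = inner ℂ z (S i j x) := by
  rw [V3a_T_inner, Finset.sum_eq_single i]
  · rw [Finset.sum_eq_single j]
    · have h1 := V3a_PJ i i z
      have h2 := V3a_PJ j j x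
      rw [if_pos rfl, V3a_P_apply] at h1 h2
      rw [h1, h2]
    · intro l _ hl
      have h2 := V3a_PJ l j x
      rw [if_neg hl, V3a_P_apply] at h2
      rw [h2, map_zero, inner_zero_right]
    · intro h
      exact absurd (Finset.mem_univ j) h
  · intro l _ hl
    have h1 := V3a_PJ l i z
    rw [if_neg hl, V3a_P_apply] at h1
    refine Finset.sum_eq_zero fun m _ => ?_
    rw [h1, inner_zero_left]
  · intro h
    exact absurd (Finset.mem_univ i) h

/-- `T + T* + 2 δ` -/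
noncomputable def V3a_N {k : ℕ} (S : Matrix (Fin k) (Fin k) (H0 →L[ℂ] H0)) (δ : ℝ) :
    V3a_E k →L[ℂ] V3a_E k :=
  V3a_T S + ContinuousLinearMap.adjoint (V3a_T S) + ((2 * δ : ℝ) : ℂ) • 1

theorem V3a_N_inner {k : ℕ} (S : Matrix (Fin k) (Fin k) (H0 →L[ℂ] H0)) (δ : ℝ) (x y : V3a_E k) :
    inner ℂ x (V3a_N S δ y) = inner ℂ x (V3a_T S y) + inner ℂ (V3a_T S x) y +
      ((2 * δ : ℝ) : ℂ) * inner ℂ x y := by
  rw [V3a_N, _root_.add_apply, _root_.add_apply, inner_add_right,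
    inner_add_right, ContinuousLinearMap.adjoint_inner_right]
  congr 1
  rw [_root_.smul_apply, one_apply_eq_self, inner_smul_right]

theorem V3a_N_pos {k : ℕ} (S : Matrix (Fin k) (Fin k) (H0 →L[ℂ] H0)) {δ : ℝ}
    (h : ∀ ζ : Fin k → H0, -δ * ∑ i, ‖ζ i‖ ^ 2 ≤ (∑ i, ∑ j, inner ℂ (ζ i) (S i j (ζ j))).re) :
    (V3a_N S δ).IsPositive := by
  rw [ContinuousLinearMap.isPositive_def']
  constructor
  · rw [V3a_N]
    refine IsSelfAdjoint.add ?_ ?_
    · exact IsSelfAdjoint.add_star_self _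
    · refine IsSelfAdjoint.smul ?_ (IsSelfAdjoint.one _)
      rw [IsSelfAdjoint, Complex.star_def, Complex.conj_ofReal]
  · intro x
    rw [ContinuousLinearMap.reApplyInnerSelf_apply, inner_re_symm, V3a_N_inner]
    have h1 := h (fun i => x i)
    rw [← V3a_T_inner, ← PiLp.norm_sq_eq_of_L2] at h1
    have h2 : RCLike.re (inner ℂ (V3a_T S x) x : ℂ) = (inner ℂ x (V3a_T S x) : ℂ).re :=
      inner_re_symm (𝕜 := ℂ) _ _
    have h3 : RCLike.re (((2 * δ : ℝ) : ℂ) * inner ℂ x x) = 2 * δ * ‖x‖ ^ 2 := by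
      rw [inner_self_eq_norm_sq_to_K]
      simp only [RCLike.re_to_complex, Complex.coe_algebraMap]
      rw [← Complex.ofReal_pow, ← Complex.ofReal_mul, Complex.ofReal_re]
    rw [map_add, map_add, h2, h3]
    have h4 : RCLike.re (inner ℂ x (V3a_T S x) : ℂ) = (inner ℂ x (V3a_T S x) : ℂ).re := rfl
    rw [h4]
    nlinarith

theorem V3a_sqrt {E : Type} [NormedAddCommGroup E] [InnerProductSpace ℂ E] [CompleteSpace E]
    (N : E →L[ℂ] E) (hN : N.IsPositive) : ∃ R0 : E →L[ℂ] E, star R0 * R0 = N := by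
  have h0 : 0 ≤ N := (ContinuousLinearMap.nonneg_iff_isPositive _).2 hN
  refine ⟨CFC.sqrt N, ?_⟩
  rw [(IsSelfAdjoint.of_nonneg (CFC.sqrt_nonneg _)).star_eq, CFC.sqrt_mul_sqrt_self _ h0]

/-- (V3a) on `H0^k` (`PiLp 2`) the operator `T = ∑ ι_i S_ij π_j` satisfies `T + T* + 2 δ ≥ 0`; let `R0` be
its positive square root, `R i j = π_i R0 ι_j`. Bound: `∑_l ‖R_li x‖² = ⟪x, (Rᴴ R)_ii x⟫`. -/
theorem mat_pos {k : ℕ} (S : Matrix (Fin k) (Fin k) (H0 →L[ℂ] H0)) {δ : ℝ} (hδ : 0 ≤ δ)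
    (h : ∀ ζ : Fin k → H0, -δ * ∑ i, ‖ζ i‖ ^ 2 ≤ (∑ i, ∑ j, inner ℂ (ζ i) (S i j (ζ j))).re) :
    ∃ R : Matrix (Fin k) (Fin k) (H0 →L[ℂ] H0),
      Rᴴ * R = S + Sᴴ + ((2 * δ : ℝ) : ℂ) • (1 : Matrix (Fin k) (Fin k) (H0 →L[ℂ] H0)) ∧
      ∀ l i, ‖R l i‖ ^ 2 ≤ 2 * ‖S i i‖ + 2 * δ := by
  obtain ⟨R0, hR0⟩ : ∃ R0 : V3a_E k →L[ℂ] V3a_E k, star R0 * R0 = V3a_N S δ :=
    V3a_sqrt _ (V3a_N_pos S h)
  have key : ∀ (i j : Fin k) (z x : H0),
      inner ℂ (R0 (V3a_J k i z)) (R0 (V3a_J k j x)) = inner ℂ z (S i j x) + inner ℂ (S j i z) x +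
        ((2 * δ : ℝ) : ℂ) * (if i = j then inner ℂ z x else 0) := by
    intro i j z x
    have h1 : inner ℂ (R0 (V3a_J k i z)) (R0 (V3a_J k j x)) =
        inner ℂ (V3a_J k i z) (V3a_N S δ (V3a_J k j x)) := by
      rw [← hR0, mul_apply_eq_comp, ContinuousLinearMap.star_eq_adjoint,
        ContinuousLinearMap.adjoint_inner_right]
    rw [h1, V3a_N_inner, V3a_T_JJ, V3a_J_inner i z (V3a_J k j x), V3a_PJ]
    have h2 : inner ℂ (V3a_T S (V3a_J k i z)) (V3a_J k j x) = inner ℂ (S j i z) x := by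
      rw [← inner_conj_symm, V3a_T_JJ, inner_conj_symm]
    rw [h2]
    congr 2
    split_ifs
    · rfl
    · rw [inner_zero_right]
  refine ⟨Matrix.of fun l i => (V3a_P k l).comp (R0.comp (V3a_J k i)), ?_, ?_⟩
  · refine Matrix.ext fun i j => ?_
    refine ContinuousLinearMap.ext fun x => ?_
    refine ext_inner_left ℂ fun z => ?_
    rw [Matrix.mul_apply, _root_.sum_apply, inner_sum]
    have h1 : ∀ l : Fin k, inner ℂ z
        (((Matrix.of fun l i => (V3a_P k l).comp (R0.comp (V3a_J k i)))ᴴ i l *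
          (Matrix.of fun l i => (V3a_P k l).comp (R0.comp (V3a_J k i))) l j) x) =
        inner ℂ (R0 (V3a_J k i z) l) (R0 (V3a_J k j x) l) := by
      intro l
      rw [Matrix.conjTranspose_apply, mul_apply_eq_comp,
        ContinuousLinearMap.star_eq_adjoint, ContinuousLinearMap.adjoint_inner_right]
      rfl
    rw [Finset.sum_congr rfl fun l _ => h1 l, ← PiLp.inner_apply, key]
    rw [Matrix.add_apply, Matrix.add_apply, Matrix.smul_apply, Matrix.conjTranspose_apply,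
      _root_.add_apply, _root_.add_apply, inner_add_right,
      inner_add_right, ContinuousLinearMap.star_eq_adjoint,
      ContinuousLinearMap.adjoint_inner_right]
    congr 1
    rw [_root_.smul_apply, inner_smul_right, Matrix.one_apply]
    split_ifs
    · rw [one_apply_eq_self]
    · rw [_root_.zero_apply, inner_zero_right]
  · intro l i
    have hC : 0 ≤ 2 * ‖S i i‖ + 2 * δ := by positivity
    rw [Matrix.of_apply]
    have h1 : ‖(V3a_P k l).comp (R0.comp (V3a_J k i))‖ ≤ √(2 * ‖S i i‖ + 2 * δ) := by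
      refine ContinuousLinearMap.opNorm_le_bound _ (Real.sqrt_nonneg _) fun x => ?_
      rw [← abs_of_nonneg (norm_nonneg x), ← Real.sqrt_sq_eq_abs, ← Real.sqrt_mul hC]
      refine Real.le_sqrt_of_sq_le ?_
      have h2 : ‖((V3a_P k l).comp (R0.comp (V3a_J k i))) x‖ ^ 2 ≤ ‖R0 (V3a_J k i x)‖ ^ 2 := by
        rw [PiLp.norm_sq_eq_of_L2]
        exact Finset.single_le_sum (f := fun l => ‖(R0 (V3a_J k i x)) l‖ ^ 2)
          (fun _ _ => sq_nonneg _) (Finset.mem_univ l)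
      refine h2.trans ?_
      have h3 : ‖R0 (V3a_J k i x)‖ ^ 2 = (inner ℂ (R0 (V3a_J k i x)) (R0 (V3a_J k i x)) : ℂ).re := by
        rw [inner_self_eq_norm_sq_to_K]
        simp only [Complex.coe_algebraMap]
        rw [← Complex.ofReal_pow, Complex.ofReal_re]
      rw [h3, key, if_pos rfl, Complex.add_re, Complex.add_re]
      have h4 : (inner ℂ x (S i i x) : ℂ).re ≤ ‖S i i‖ * ‖x‖ ^ 2 := by
        refine (Complex.re_le_norm _).trans ((norm_inner_le_norm _ _).trans ?_)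
        have := (S i i).le_opNorm x
        nlinarith [norm_nonneg x]
      have h5 : (inner ℂ (S i i x) x : ℂ).re ≤ ‖S i i‖ * ‖x‖ ^ 2 := by
        refine (Complex.re_le_norm _).trans ((norm_inner_le_norm _ _).trans ?_)
        have := (S i i).le_opNorm x
        nlinarith [norm_nonneg x]
      have h6 : (((2 * δ : ℝ) : ℂ) * inner ℂ x x).re = 2 * δ * ‖x‖ ^ 2 := by
        rw [inner_self_eq_norm_sq_to_K]
        simp only [Complex.coe_algebraMap]
        rw [← Complex.ofReal_pow, ← Complex.ofReal_mul, Complex.ofReal_re]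
      rw [h6]
      nlinarith
    calc ‖(V3a_P k l).comp (R0.comp (V3a_J k i))‖ ^ 2 ≤ √(2 * ‖S i i‖ + 2 * δ) ^ 2 := by
          gcongr
      _ = 2 * ‖S i i‖ + 2 * δ := Real.sq_sqrt hC

end Vale.Agent.P083K
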