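import Vale.Agent.P083K.Defs3

open Filter Topology Matrix
open scoped ENNReal

namespace Vale.Agent.P083K

open Vale.Agent.P101K

/-- entrywise application of a *-homomorphism, on the C*-algebra of matrices -/
noncomputable def V3b_map {A M : Type} [CStarAlgebra A] [CStarAlgebra M] (γ : A →⋆ₐ[ℂ] M)
    (k : ℕ) : CStarMatrix (Fin k) (Fin k) A →⋆ₐ[ℂ] CStarMatrix (Fin k) (Fin k) M where
  toFun := fun T => T.map γ
  map_one' := by
    ext i j
    rw [CStarMatrix.map_apply, CStarMatrix.one_apply, CStarMatrix.one_apply]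
    split_ifs <;> simp
  map_mul' S T := by
    ext i j
    rw [CStarMatrix.map_apply, CStarMatrix.mul_apply, CStarMatrix.mul_apply, map_sum]
    refine Finset.sum_congr rfl fun l _ => ?_
    rw [map_mul, CStarMatrix.map_apply, CStarMatrix.map_apply]
  map_zero' := by
    ext i j
    rw [CStarMatrix.map_apply, CStarMatrix.zero_apply, CStarMatrix.zero_apply, map_zero]
  map_add' S T := by
    ext i j
    rw [CStarMatrix.map_apply, CStarMatrix.add_apply, CStarMatrix.add_apply, map_add,
      CStarMatrix.map_apply, CStarMatrix.map_apply]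
  commutes' r := by
    ext i j
    rw [CStarMatrix.map_apply, CStarMatrix.algebraMap_apply, CStarMatrix.algebraMap_apply]
    split_ifs
    · exact γ.commutes' r
    · exact map_zero γ
  map_star' T := by
    ext i j
    rw [CStarMatrix.map_apply, CStarMatrix.star_apply, CStarMatrix.star_apply, map_star,
      CStarMatrix.map_apply]

/-- injective *-homomorphisms reflect positivity -/
theorem V3b_refl {A M : Type} [CStarAlgebra A] [CStarAlgebra M] (Φ : A →⋆ₐ[ℂ] M)
    (hΦ : Function.Injective Φ) (T : A) (R : M) (hTR : Φ T = star R * R) :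
    ∃ Q : A, T = star Q * Q := by
  let _ := CStarAlgebra.spectralOrder A
  let _ := CStarAlgebra.spectralOrder M
  have := CStarAlgebra.spectralOrderedRing A
  have := CStarAlgebra.spectralOrderedRing M
  have hsa : IsSelfAdjoint T := by
    refine hΦ ?_
    rw [map_star, hTR, star_mul, star_star]
  have hsp := hsa.map_spectrum_real Φ hΦ
  have hpos : 0 ≤ T := by
    rw [StarOrderedRing.nonneg_iff_spectrum_nonneg (R := ℝ) T hsa, ← hsp, hTR]
    exact spectrum_star_mul_self_nonneg
  refine ⟨CFC.sqrt T, ?_⟩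
  rw [(IsSelfAdjoint.of_nonneg (CFC.sqrt_nonneg T)).star_eq, CFC.sqrt_mul_sqrt_self T hpos]

/-- (V3b) `CStarMatrix.map γ` is an injective *-homomorphism between the C*-algebras `CStarMatrix`;
it sends `T` to a positive element, so `T` is self-adjoint and the negative part of `T` (continuous
functional calculus commutes with *-homomorphisms, `StarAlgHomClass.map_cfc`) is `0`; `Q` = square root. -/
theorem inj_pos {A M : Type} [CStarAlgebra A] [CStarAlgebra M] (γ : A →⋆ₐ[ℂ] M)
    (hγ : ∀ a, ‖γ a‖ = ‖a‖) {k : ℕ} (T : Matrix (Fin k) (Fin k) A) (R : Matrix (Fin k) (Fin k) M)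
    (h : (fun i j => γ (T i j)) = Rᴴ * R) : ∃ Q : Matrix (Fin k) (Fin k) A, T = Qᴴ * Q := by
  let _ := CStarAlgebra.spectralOrder A
  let _ := CStarAlgebra.spectralOrder M
  have := CStarAlgebra.spectralOrderedRing A
  have := CStarAlgebra.spectralOrderedRing M
  have hinj : Function.Injective γ := by
    rw [injective_iff_map_eq_zero]
    intro a ha
    rw [← norm_eq_zero, ← hγ a, ha, norm_zero]
  let Φ : CStarMatrix (Fin k) (Fin k) A →⋆ₐ[ℂ] CStarMatrix (Fin k) (Fin k) M := V3b_map γ k
  have hΦ : Function.Injective Φ := CStarMatrix.map_injective hinj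
  let T' : CStarMatrix (Fin k) (Fin k) A := CStarMatrix.ofMatrix T
  let R' : CStarMatrix (Fin k) (Fin k) M := CStarMatrix.ofMatrix R
  obtain ⟨Q, hQ⟩ := V3b_refl Φ hΦ T' R' h
  exact ⟨CStarMatrix.ofMatrix.symm Q, hQ⟩

end Vale.Agent.P083K
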