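import Vale.Agent.P083K.Defs3

open Filter Topology Matrix
open scoped ENNReal

namespace Vale.Agent.P083K

open Vale.Agent.P101K

/-- (V3c) the sum is `∑_l (y_l)* y_l`, `y_l = ∑_i iA (Q l i) * Ξ i`. -/
theorem state_mat {A P : Type} [CStarAlgebra A] [CStarAlgebra P] (iA : A →⋆ₐ[ℂ] P) (f : P →L[ℂ] ℂ)
    (hf : IsSt f) {k : ℕ} (Q : Matrix (Fin k) (Fin k) A) (Ξ : Fin k → P) :
    0 ≤ (f (∑ i, ∑ j, star (Ξ i) * iA ((Qᴴ * Q) i j) * Ξ j)).re := by
  have key : (∑ i, ∑ j, star (Ξ i) * iA ((Qᴴ * Q) i j) * Ξ j) =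
      ∑ l, star (∑ i, iA (Q l i) * Ξ i) * (∑ j, iA (Q l j) * Ξ j) := by
    have h1 : ∀ l, star (∑ i, iA (Q l i) * Ξ i) * (∑ j, iA (Q l j) * Ξ j) =
        ∑ i, ∑ j, star (Ξ i) * iA (star (Q l i) * Q l j) * Ξ j := by
      intro l
      rw [star_sum, Finset.sum_mul_sum]
      refine Finset.sum_congr rfl fun i _ => Finset.sum_congr rfl fun j _ => ?_
      rw [star_mul, map_mul, map_star]
      simp only [mul_assoc]
    rw [Finset.sum_congr rfl fun l _ => h1 l]
    symm
    rw [Finset.sum_comm]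
    refine Finset.sum_congr rfl fun i _ => ?_
    rw [Finset.sum_comm]
    refine Finset.sum_congr rfl fun j _ => ?_
    rw [Matrix.mul_apply, map_sum, Finset.mul_sum, Finset.sum_mul]
    refine Finset.sum_congr rfl fun l _ => ?_
    rw [Matrix.conjTranspose_apply]
  rw [key, map_sum, Complex.re_sum]
  refine Finset.sum_nonneg fun l _ => ?_
  obtain ⟨r, hr, h⟩ := hf.2 (∑ i, iA (Q l i) * Ξ i)
  rw [h, Complex.ofReal_re]
  exact hr

/-- a state is hermitian (polarisation, `IsSt`). -/
theorem state_star {P : Type} [CStarAlgebra P] (f : P →L[ℂ] ℂ) (hf : IsSt f) (x : P) :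
    f (star x) = star (f x) := by
  obtain ⟨r₀, _, h0⟩ := hf.2 x
  obtain ⟨r₁, _, h1⟩ := hf.2 (1 + x)
  obtain ⟨r₂, _, h2⟩ := hf.2 (1 + Complex.I • x)
  have e1 : star (1 + x) * (1 + x) = 1 + x + star x + star x * x := by
    rw [star_add, star_one]
    noncomm_ring
  have e2 : star (1 + Complex.I • x) * (1 + Complex.I • x) =
      1 + Complex.I • x - Complex.I • star x + star x * x := by
    rw [star_add, star_one, star_smul, Complex.star_def, Complex.conj_I, mul_add, mul_one, add_mul,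
      one_mul, smul_mul_smul_comm]
    have h3 : (-Complex.I * Complex.I : ℂ) = 1 := by
      rw [neg_mul, Complex.I_mul_I, neg_neg]
    rw [h3, one_smul, neg_smul]
    abel
  rw [e1, map_add, map_add, map_add, hf.1, h0] at h1
  rw [e2, map_add, map_sub, map_add, map_smul, map_smul, hf.1, h0] at h2
  have i1 := congrArg Complex.im h1
  have i2 := congrArg Complex.im h2
  simp only [Complex.add_im, Complex.sub_im, Complex.one_im, Complex.ofReal_im, smul_eq_mul,
    Complex.mul_im, Complex.I_re, Complex.I_im, zero_mul, one_mul, zero_add, add_zero] at i1 i2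
  rw [Complex.star_def]
  apply Complex.ext
  · rw [Complex.conj_re]
    linarith
  · rw [Complex.conj_im]
    linarith

end Vale.Agent.P083K
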