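import Vale.Agent.P083K.Defs3
import Vale.Agent.P083K.V0
import Vale.Agent.P083K.V1
import Vale.Agent.P083K.V2
import Vale.Agent.P083K.V3a
import Vale.Agent.P083K.V3b
import Vale.Agent.P083K.V3c
import Vale.Agent.P083K.E1

open Filter Topology Matrix
open scoped ENNReal

namespace Vale.Agent.P083K

open Vale.Agent.P101K

theorem V_nt : Nontrivial (H0 →L[ℂ] H0) := by
  have h1 : (bv 0 : H0) ≠ 0 := by
    intro h
    have h2 := congrArg (fun x : H0 => x 0) h
    simp [bv] at h2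
  have : Nontrivial H0 := ⟨bv 0, 0, h1⟩
  infer_instance

theorem V_sum_apply {O : Type} [CStarAlgebra O] [Nontrivial O] {ι : Type} (u : Finset ι)
    (y : ι → Bdd O) (n : ℕ) : (∑ i ∈ u, y i) n = ∑ i ∈ u, (y i) n := by
  rw [lp.coeFn_sum, Finset.sum_apply]

/-- the step for a fixed `δ`. -/
theorem V_step {s : Fin 2 → (H0 →L[ℂ] H0)} {ω : Ultrafilter ℕ}
    {A P : Type} [CStarAlgebra A] [CStarAlgebra P] (iA : A →⋆ₐ[ℂ] P) (f : P →L[ℂ] ℂ) (hf : IsSt f)
    (φ : ℕ → A → (H0 →L[ℂ] H0)) (h : IsHS ω φ) (hn : ∀ a, Tendsto (fun n => ‖φ n a‖) ω (𝓝 ‖a‖))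
    {r : ℕ} (a : Fin r → A) {k : ℕ} (Ξ : Fin k → P) (c : Fin r × Fin k × Fin k → ℂ)
    (hc : ∀ z ∈ RealK s ω φ a k, 0 ≤ (∑ i, c i * z i).re) {δ : ℝ} (hδ : 0 < δ)
    (T : Matrix (Fin k) (Fin k) A) (hT : ∀ i j, T i j = ∑ t, c (t, i, j) • a t) :
    0 ≤ (f (∑ i, ∑ j, star (Ξ i) * iA ((T + Tᴴ + ((2 * δ : ℝ) : ℂ) •
      (1 : Matrix (Fin k) (Fin k) A)) i j) * Ξ j)).re := by
  have := V_nt
  have hdual := realK_dual (fun t => h.1 (a t)) c hc hδ
  set S : ℕ → Matrix (Fin k) (Fin k) (H0 →L[ℂ] H0) :=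
    fun n i j => ∑ t, c (t, i, j) • φ n (a t) with hS
  have hS1 : ∀ᶠ n in (ω : Filter ℕ), ∀ ζ : Fin k → H0, -δ * ∑ i, ‖ζ i‖ ^ 2 ≤
      (∑ i, ∑ j, inner ℂ (ζ i) (S n i j (ζ j))).re := by
    filter_upwards [hdual] with n hnn ζ
    refine (hnn ζ).trans (le_of_eq ?_)
    have e : (∑ t, ∑ i, ∑ j, c (t, i, j) * inner ℂ (ζ i) (φ n (a t) (ζ j)))
        = ∑ i, ∑ j, inner ℂ (ζ i) (S n i j (ζ j)) := by
      rw [Finset.sum_comm]
      refine Finset.sum_congr rfl fun i _ => ?_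
      rw [Finset.sum_comm]
      refine Finset.sum_congr rfl fun j _ => ?_
      rw [hS]
      simp only [_root_.sum_apply, _root_.smul_apply, inner_sum,
        inner_smul_right]
    rw [e]
  -- the bound
  have hb : ∀ t, ∃ C : ℝ, ∀ n, ‖φ n (a t)‖ ≤ C := fun t => h.1 (a t)
  choose C hC using hb
  have hSb : ∀ n i, ‖S n i i‖ ≤ ∑ t, ‖c (t, i, i)‖ * C t := by
    intro n i
    rw [hS]
    refine (norm_sum_le _ _).trans (Finset.sum_le_sum fun t _ => ?_)
    exact (norm_smul_le _ _).trans (mul_le_mul_of_nonneg_left (hC t n) (norm_nonneg _))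
  have hR : ∀ n, ∃ R : Matrix (Fin k) (Fin k) (H0 →L[ℂ] H0),
      ((∀ ζ : Fin k → H0, -δ * ∑ i, ‖ζ i‖ ^ 2 ≤ (∑ i, ∑ j, inner ℂ (ζ i) (S n i j (ζ j))).re) →
        Rᴴ * R = S n + (S n)ᴴ + ((2 * δ : ℝ) : ℂ) • (1 : Matrix (Fin k) (Fin k) (H0 →L[ℂ] H0))) ∧
      ∀ l i, ‖R l i‖ ^ 2 ≤ 2 * ‖S n i i‖ + 2 * δ := by
    intro n
    by_cases hg : ∀ ζ : Fin k → H0, -δ * ∑ i, ‖ζ i‖ ^ 2 ≤
        (∑ i, ∑ j, inner ℂ (ζ i) (S n i j (ζ j))).re
    · obtain ⟨R, h1, h2⟩ := mat_pos (S n) hδ.le hg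
      exact ⟨R, fun _ => h1, h2⟩
    · refine ⟨0, fun hh => absurd hh hg, fun l i => ?_⟩
      have : (0 : Matrix (Fin k) (Fin k) (H0 →L[ℂ] H0)) l i = 0 := rfl
      rw [this, norm_zero]
      have := norm_nonneg (S n i i)
      nlinarith
  choose R hR1 hR2 using hR
  have hRb : ∀ n l i, ‖R n l i‖ ≤ (2 * (∑ t, ‖c (t, i, i)‖ * C t) + 2 * δ) + 1 := by
    intro n l i
    have h1 := hR2 n l i
    have h2 := hSb n i
    nlinarith [sq_nonneg (‖R n l i‖ - 1), norm_nonneg (R n l i)]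
  obtain ⟨γ, hγ⟩ := seq_hom φ h
  choose ya hya1 hya2 using hγ
  have hiso : ∀ x, ‖γ x‖ = ‖x‖ := by
    intro x
    have h1 := omk_norm (H0 →L[ℂ] H0) ω (ya x)
    rw [← hya2 x] at h1
    refine tendsto_nhds_unique h1 ?_
    refine (hn x).congr fun n => ?_
    rw [hya1]
  set yR : Fin k → Fin k → Bdd (H0 →L[ℂ] H0) := fun l i =>
    ⟨fun n => R n l i, memℓp_infty ⟨(2 * (∑ t, ‖c (t, i, i)‖ * C t) + 2 * δ) + 1, by
      rintro _ ⟨n, rfl⟩; exact hRb n l i⟩⟩ with hyR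
  have hyRn : ∀ l i n, yR l i n = R n l i := fun _ _ _ => rfl
  set RR : Matrix (Fin k) (Fin k) (Aom (H0 →L[ℂ] H0) ω) :=
    fun l i => omk (H0 →L[ℂ] H0) ω (yR l i) with hRR
  have key : (fun i j => γ ((T + Tᴴ + ((2 * δ : ℝ) : ℂ) • (1 : Matrix (Fin k) (Fin k) A)) i j))
      = RRᴴ * RR := by
    funext i j
    have e1 : γ ((T + Tᴴ + ((2 * δ : ℝ) : ℂ) • (1 : Matrix (Fin k) (Fin k) A)) i j)
        = omk (H0 →L[ℂ] H0) ω ((∑ t, c (t, i, j) • ya (a t)) + star (∑ t, c (t, j, i) • ya (a t))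
          + ((2 * δ : ℝ) : ℂ) • (if i = j then 1 else 0)) := by
      rw [Matrix.add_apply, Matrix.add_apply, Matrix.smul_apply, Matrix.conjTranspose_apply,
        hT, hT, Matrix.one_apply]
      have e0 : γ (((2 * δ : ℝ) : ℂ) • (if i = j then (1 : A) else 0))
          = omk (H0 →L[ℂ] H0) ω (((2 * δ : ℝ) : ℂ) • (if i = j then 1 else 0)) := by
        rw [map_smul, map_smul]
        congr 1
        split_ifs
        · rw [map_one, map_one]
        · rw [map_zero, map_zero]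
      have e0' : ∀ i j, γ (∑ t, c (t, i, j) • a t)
          = omk (H0 →L[ℂ] H0) ω (∑ t, c (t, i, j) • ya (a t)) := by
        intro i j
        rw [map_sum, map_sum]
        refine Finset.sum_congr rfl fun t _ => ?_
        rw [map_smul, map_smul, hya2]
      rw [map_add γ, map_add γ, map_star γ, e0', e0', e0, map_add (omk (H0 →L[ℂ] H0) ω),
        map_add (omk (H0 →L[ℂ] H0) ω), map_star (omk (H0 →L[ℂ] H0) ω)]
    have e2 : (RRᴴ * RR) i j = omk (H0 →L[ℂ] H0) ω (∑ l, star (yR l i) * yR l j) := by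
      rw [Matrix.mul_apply, map_sum]
      refine Finset.sum_congr rfl fun l _ => ?_
      rw [Matrix.conjTranspose_apply, map_mul, map_star]
    rw [e1, e2]
    change aomMk _ = aomMk _
    rw [aomMk_eq]
    refine (tendsto_congr' ?_).2 tendsto_const_nhds
    filter_upwards [hS1] with n hnn
    have h1 := hR1 n hnn
    have h2 := congrFun (congrFun h1 i) j
    rw [Matrix.mul_apply, Matrix.add_apply, Matrix.add_apply, Matrix.smul_apply,
      Matrix.conjTranspose_apply, Matrix.one_apply] at h2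
    simp only [Matrix.conjTranspose_apply] at h2
    rw [norm_eq_zero, sub_eq_zero, aom_add_apply, aom_add_apply, aom_star_apply, aom_smul_apply,
      V_sum_apply, V_sum_apply, V_sum_apply]
    simp only [aom_smul_apply, aom_mul_apply, aom_star_apply, hya1, hyRn]
    rw [h2]
    congr 2
    split_ifs <;> rfl
  obtain ⟨Q, hQ⟩ := inj_pos γ hiso _ RR key
  have := state_mat iA f hf Q Ξ
  rw [← hQ] at this
  exact this

/-- (V) assume not; `cone_sep` gives `c`; put `T_ij = ∑_t c(t,i,j) a_t`, `S^n_ij = ∑_t c(t,i,j) φ_n(a_t)`;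
`realK_dual`, `mat_pos`: `(R^n)ᴴ R^n = S^n + (S^n)ᴴ + 2 δ` for `ω`-many `n` (else `R^n = 0`), entries bounded; with
`γ` from `seq_hom` (isometric by `omk_norm` and `hn`), `γ(T + Tᴴ + 2 δ) = Rᴴ R` with `R = (omk R^n_ij)`; `inj_pos`,
`state_mat`: `0 ≤ re f(∑ Ξ_i* iA((T + Tᴴ + 2 δ)_ij) Ξ_j)`; let `δ → 0`; the limit is
`2 re ∑ c p` (`state_star`), a contradiction. -/
theorem realK_state {s : Fin 2 → (H0 →L[ℂ] H0)} (hs : CzRel s) {ω : Ultrafilter ℕ}
    {A P : Type} [CStarAlgebra A] [CStarAlgebra P] (iA : A →⋆ₐ[ℂ] P) (f : P →L[ℂ] ℂ) (hf : IsSt f)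
    (φ : ℕ → A → (H0 →L[ℂ] H0)) (h : IsHS ω φ) (hn : ∀ a, Tendsto (fun n => ‖φ n a‖) ω (𝓝 ‖a‖))
    {r : ℕ} (a : Fin r → A) {k : ℕ} (Ξ : Fin k → P) :
    (fun z : Fin r × Fin k × Fin k => f (star (Ξ z.2.1) * iA (a z.1) * Ξ z.2.2)) ∈
      RealK s ω φ a k := by
  by_contra hp
  obtain ⟨c, hc1, hc2⟩ := cone_sep (RealK s ω φ a k) realK_closed realK_zero
    (fun x hx y hy => realK_add hs hx hy) (fun x hx t ht => realK_smul hx ht) _ hp
  set T : Matrix (Fin k) (Fin k) A := fun i j => ∑ t, c (t, i, j) • a t with hT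
  have hT' : ∀ i j, T i j = ∑ t, c (t, i, j) • a t := fun _ _ => rfl
  set W : P := ∑ i, ∑ j, star (Ξ i) * iA (T i j) * Ξ j with hW
  set N : P := ∑ i, star (Ξ i) * Ξ i with hN
  have hfW : f W = ∑ z : Fin r × Fin k × Fin k, c z * f (star (Ξ z.2.1) * iA (a z.1) * Ξ z.2.2) := by
    rw [hW, map_sum, Fintype.sum_prod_type]
    simp only [Fintype.sum_prod_type]
    rw [Finset.sum_comm]
    refine Finset.sum_congr rfl fun i _ => ?_
    rw [map_sum, Finset.sum_comm]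
    refine Finset.sum_congr rfl fun j _ => ?_
    rw [hT', map_sum, Finset.mul_sum, Finset.sum_mul, map_sum]
    refine Finset.sum_congr rfl fun t _ => ?_
    rw [map_smul, mul_smul_comm, smul_mul_assoc, map_smul, smul_eq_mul]
  have hWs : star W = ∑ i, ∑ j, star (Ξ i) * iA (Tᴴ i j) * Ξ j := by
    rw [hW, star_sum, ]
    simp only [star_sum, star_mul, star_star, ← map_star, Matrix.conjTranspose_apply]
    rw [Finset.sum_comm]
    refine Finset.sum_congr rfl fun i _ => Finset.sum_congr rfl fun j _ => ?_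
    rw [mul_assoc]
  have hall : ∀ δ : ℝ, 0 < δ → 0 ≤ 2 * (f W).re + 2 * δ * (f N).re := by
    intro δ hδ
    have h1 := V_step iA f hf φ h hn a Ξ c hc1 hδ T hT'
    have e : (∑ i, ∑ j, star (Ξ i) * iA ((T + Tᴴ + ((2 * δ : ℝ) : ℂ) •
        (1 : Matrix (Fin k) (Fin k) A)) i j) * Ξ j) = W + star W + ((2 * δ : ℝ) : ℂ) • N := by
      rw [hWs, hW, hN, Finset.smul_sum, ← Finset.sum_add_distrib, ← Finset.sum_add_distrib]
      refine Finset.sum_congr rfl fun i _ => ?_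
      have e3 : ((2 * δ : ℝ) : ℂ) • (star (Ξ i) * Ξ i) = ∑ j, star (Ξ i) *
          iA (((2 * δ : ℝ) : ℂ) • ((1 : Matrix (Fin k) (Fin k) A) i j)) * Ξ j := by
        rw [Finset.sum_eq_single i]
        · rw [Matrix.one_apply_eq, map_smul, map_one, mul_smul_comm, mul_one, smul_mul_assoc]
        · intro j _ hj
          rw [Matrix.one_apply_ne (Ne.symm hj), smul_zero, map_zero, mul_zero, zero_mul]
        · intro hi
          exact absurd (Finset.mem_univ i) hi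
      rw [e3, ← Finset.sum_add_distrib, ← Finset.sum_add_distrib]
      refine Finset.sum_congr rfl fun j _ => ?_
      rw [Matrix.add_apply, Matrix.add_apply, Matrix.smul_apply, map_add, map_add, mul_add,
        mul_add, add_mul, add_mul]
    rw [e, map_add, map_add, map_smul, state_star f hf, Complex.add_re, Complex.add_re,
      smul_eq_mul, Complex.re_ofReal_mul] at h1
    have e2 : (star (f W)).re = (f W).re := rfl
    rw [e2] at h1
    linarith
  rw [← hfW] at hc2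
  have hpos : (0 : ℝ) < |(f N).re| + 1 := by positivity
  have h1 := hall (-(f W).re / (2 * (|(f N).re| + 1))) (by
    apply div_pos (by linarith) (by positivity))
  have h2 : 2 * (-(f W).re / (2 * (|(f N).re| + 1))) * (f N).re ≤ -(f W).re := by
    have h3 : 2 * (-(f W).re / (2 * (|(f N).re| + 1))) = -(f W).re / (|(f N).re| + 1) := by
      field_simp
    rw [h3, div_mul_eq_mul_div, div_le_iff₀ hpos]
    have h4 := le_abs_self (f N).re
    nlinarith
  linarith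

end Vale.Agent.P083K
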